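/-
Row 152, module MC (machine chain), part 5: glue with Mathlib's computability.
* every r.e. binary predicate on `ℕ` is the domain of a `ToPartrec.Code` on lists `[n, q]`;
* the universal predicate (no recursion theorem needed);
* binary numerals on the stack.
-/
import Mathlib

set_option autoImplicit false

open Turing

namespace Claimed.Agent.R152.MC

/-- every r.e. predicate `p q n` is the domain of a code evaluated at `[n, q]` -/
theorem exists_code_of_re (p : ℕ → ℕ → Prop) (hp : REPred fun x : ℕ × ℕ => p x.1 x.2) :
    ∃ c : ToPartrec.Code, ∀ q n, (c.eval [n, q]).Dom ↔ p q n := by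
  have h1 : Partrec₂ fun (n q : ℕ) => (Part.assert (p q n) fun _ => Part.some ()).map fun _ => 0 := by
    have : Partrec fun x : ℕ × ℕ => Part.assert (p x.2 x.1) fun _ => Part.some () :=
      Partrec.comp (f := fun x : ℕ × ℕ => Part.assert (p x.1 x.2) fun _ => Part.some ()) hp
        (Computable.pair Computable.snd Computable.fst)
    exact this.map (Computable.const 0).to₂
  obtain ⟨c, hc⟩ := ToPartrec.Code.exists_code (Nat.Partrec'.part_iff₂.2 h1)
  refine ⟨c, fun q n => ?_⟩
  have := hc ⟨[n, q], rfl⟩
  simp only at this
  rw [this]
  simp [List.Vector.head, List.Vector.tail, Part.assert]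

/-- The universal r.e. predicate: program `q` run on the pair `(q, n)`. -/
def Univ (q n : ℕ) : Prop :=
  ((Denumerable.ofNat Nat.Partrec.Code q).eval (Nat.pair q n)).Dom

theorem univ_re : REPred fun x : ℕ × ℕ => Univ x.1 x.2 := by
  have h : Partrec fun x : ℕ × ℕ =>
      (Denumerable.ofNat Nat.Partrec.Code x.1).eval (Nat.pair x.1 x.2) :=
    Nat.Partrec.Code.eval_part.comp ((Computable.ofNat _).comp Computable.fst)
      (Primrec₂.natPair.to_comp.comp Computable.fst Computable.snd)
  exact h.dom_re

/-- SELF REFERENCE WITHOUT THE RECURSION THEOREM: every r.e. family `D q` of sets agrees with the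
universal family at some index `q₀`. -/
theorem exists_self (D : ℕ → ℕ → Prop) (hD : REPred fun x : ℕ × ℕ => D x.1 x.2) :
    ∃ q₀, ∀ n, Univ q₀ n ↔ D q₀ n := by
  have h1 : Partrec fun k : ℕ =>
      (Part.assert (D k.unpair.1 k.unpair.2) fun _ => Part.some ()).map fun _ => 0 := by
    have : Partrec fun k : ℕ => Part.assert (D k.unpair.1 k.unpair.2) fun _ => Part.some () :=
      Partrec.comp (f := fun x : ℕ × ℕ => Part.assert (D x.1 x.2) fun _ => Part.some ()) hD
        Primrec.unpair.to_comp
    exact this.map (Computable.const 0).to₂
  obtain ⟨c, hc⟩ := Nat.Partrec.Code.exists_code.1 (Partrec.nat_iff.1 h1)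
  refine ⟨Encodable.encode c, fun n => ?_⟩
  simp [Univ, hc, Part.assert]

open Turing.PartrecToTM2 in
theorem trNat_two_mul {n : ℕ} (hn : 0 < n) : trNat (2 * n) = Γ'.bit0 :: trNat n := by
  unfold trNat
  have : ((2 * n : ℕ) : Num) = Num.bit0 (n : Num) := by
    rw [← Num.bit0_of_bit0, two_mul]; push_cast; rfl
  rw [this]
  cases h : (n : Num) with
  | zero =>
    exfalso
    have : ((n : Num) : ℕ) = 0 := by rw [h]; rfl
    simp at this; omega
  | pos k => rfl

open Turing.PartrecToTM2 in
theorem trNat_two_mul_add_one (n : ℕ) : trNat (2 * n + 1) = Γ'.bit1 :: trNat n := by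
  unfold trNat
  have : ((2 * n + 1 : ℕ) : Num) = Num.bit1 (n : Num) := by
    rw [← Num.bit1_of_bit1, two_mul]; push_cast; rfl
  rw [this]
  cases h : (n : Num) with
  | zero => rfl
  | pos k => rfl

/-- the number coding a raw input word (head = last letter written): `[] ↦ 1`,
`false :: w ↦ 4 n`, `true :: w ↦ 4 n + 2`. -/
def num : List Bool → ℕ
  | [] => 1
  | b :: w => 4 * num w + (if b then 2 else 0)

theorem num_pos (w : List Bool) : 0 < num w := by
  induction w with
  | nil => exact Nat.one_pos
  | cons b w ih => simp only [num]; omega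

theorem num_injective : Function.Injective num := by
  intro w
  induction w with
  | nil =>
    intro w' h
    cases w' with
    | nil => rfl
    | cons b w' =>
      exfalso
      have := num_pos w'
      simp only [num] at h
      split_ifs at h <;> omega
  | cons b w ih =>
    intro w' h
    cases w' with
    | nil =>
      exfalso
      have := num_pos w
      simp only [num] at h
      split_ifs at h <;> omega
    | cons b' w' =>
      simp only [num] at h
      have h1 : num w = num w' := by split_ifs at h <;> omega
      have h2 : b = b' := by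
        rw [h1] at h
        cases b <;> cases b' <;> simp at h ⊢
      rw [ih h1, h2]

open Turing.PartrecToTM2 in
theorem trNat_num_cons (b : Bool) (w : List Bool) :
    trNat (num (b :: w)) = Γ'.bit0 :: (if b then Γ'.bit1 else Γ'.bit0) :: trNat (num w) := by
  have hw := num_pos w
  cases b with
  | false =>
    have : num (false :: w) = 2 * (2 * num w) := by simp [num]; ring
    rw [this, trNat_two_mul (by omega), trNat_two_mul hw]; rfl
  | true =>
    have : num (true :: w) = 2 * (2 * num w + 1) := by simp [num]; ring
    rw [this, trNat_two_mul (by omega), trNat_two_mul_add_one]; rfl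

open Turing.PartrecToTM2 in
theorem trNat_num_nil : trNat (num []) = [Γ'.bit1] := by
  have := trNat_two_mul_add_one 0
  simpa [num, trNat_zero] using this

end Claimed.Agent.R152.MC
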