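/-
Row 152, module MC (machine chain), part 1: affine machines on `R → ℤ`.

An *operation* `Op` is a partial injective affine map of `ℤ`: `a + μ u ↦ b + μ' u` (`u : ℤ`);
`μ = μ' = 0` is the exact test `a ↦ b`.  An *instruction* is a family `R → Op` (a diagonal partial
affine map of `R → ℤ`).  A *machine* is a family of instructions.
-/
import Mathlib

set_option autoImplicit false

namespace Claimed.Agent.R152.MC

/-- A partial affine map of `ℤ`: `a + μ u ↦ b + μ' u`. -/
structure Op where
  a : ℤ
  μ : ℤ
  b : ℤ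
  μ' : ℤ
  deriving DecidableEq

namespace Op

/-- the graph of an operation -/
def Rel (o : Op) (x y : ℤ) : Prop := ∃ u : ℤ, x = o.a + o.μ * u ∧ y = o.b + o.μ' * u

/-- an operation is valid if `μ = 0 ↔ μ' = 0` (so that it is a partial injection) -/
def Valid (o : Op) : Prop := o.μ = 0 ↔ o.μ' = 0

/-- identity -/
def idn : Op := ⟨0, 1, 0, 1⟩
/-- exact test `x = a`, new value `b` -/
def exact (a b : ℤ) : Op := ⟨a, 0, b, 0⟩
/-- push the digit `d` in base `m` -/
def push (m d : ℤ) : Op := ⟨0, 1, d, m⟩
/-- pop the digit `d` in base `m` -/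
def pop (m d : ℤ) : Op := ⟨d, m, 0, 1⟩
/-- test that the last digit in base `m` is `d` -/
def test (m d : ℤ) : Op := ⟨d, m, d, m⟩

@[simp] theorem rel_idn {x y : ℤ} : idn.Rel x y ↔ y = x := by
  constructor
  · rintro ⟨u, h1, h2⟩; simp [idn] at h1 h2; omega
  · rintro rfl; exact ⟨y, by simp [idn], by simp [idn]⟩

@[simp] theorem rel_exact {a b x y : ℤ} : (exact a b).Rel x y ↔ x = a ∧ y = b := by
  constructor
  · rintro ⟨u, h1, h2⟩; simpa [exact] using And.intro h1 h2
  · rintro ⟨rfl, rfl⟩; exact ⟨0, by simp [exact], by simp [exact]⟩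

@[simp] theorem rel_push {m d x y : ℤ} : (push m d).Rel x y ↔ y = m * x + d := by
  constructor
  · rintro ⟨u, h1, h2⟩
    simp only [push, zero_add, one_mul] at h1 h2
    subst h1; rw [h2]; ring
  · rintro rfl; exact ⟨x, by simp [push], by simp [push]; ring⟩

@[simp] theorem rel_pop {m d x y : ℤ} : (pop m d).Rel x y ↔ x = m * y + d := by
  constructor
  · rintro ⟨u, h1, h2⟩
    simp only [pop, zero_add, one_mul] at h1 h2
    subst h2; rw [h1]; ring
  · rintro rfl; exact ⟨y, by simp [pop]; ring, by simp [pop]⟩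

@[simp] theorem rel_test {m d x y : ℤ} : (test m d).Rel x y ↔ y = x ∧ ∃ u, x = m * u + d := by
  constructor
  · rintro ⟨u, h1, h2⟩
    simp only [test] at h1 h2
    exact ⟨by rw [h1, h2], u, by rw [h1]; ring⟩
  · rintro ⟨rfl, u, h⟩; exact ⟨u, by simp [test, h]; ring, by simp [test, h]; ring⟩

theorem valid_idn : idn.Valid := by simp [Valid, idn]
theorem valid_exact (a b : ℤ) : (exact a b).Valid := by simp [Valid, exact]
theorem valid_push {m : ℤ} (hm : m ≠ 0) (d : ℤ) : (push m d).Valid := by simp [Valid, push, hm]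
theorem valid_pop {m : ℤ} (hm : m ≠ 0) (d : ℤ) : (pop m d).Valid := by simp [Valid, pop, hm]
theorem valid_test (m d : ℤ) : (test m d).Valid := by simp [Valid, test]

/-- a valid operation is a partial function -/
theorem Rel.unique {o : Op} (ho : o.Valid) {x y y' : ℤ} (h : o.Rel x y) (h' : o.Rel x y') :
    y = y' := by
  obtain ⟨u, h1, h2⟩ := h
  obtain ⟨u', h1', h2'⟩ := h'
  by_cases hμ : o.μ = 0
  · rw [h2, h2', ho.1 hμ]; simp
  · have : u = u' := by
      have : o.μ * u = o.μ * u' := by linarith
      exact mul_left_cancel₀ hμ this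
    rw [h2, h2', this]

/-- a valid operation is injective -/
theorem Rel.unique_left {o : Op} (ho : o.Valid) {x x' y : ℤ} (h : o.Rel x y) (h' : o.Rel x' y) :
    x = x' := by
  obtain ⟨u, h1, h2⟩ := h
  obtain ⟨u', h1', h2'⟩ := h'
  by_cases hμ : o.μ' = 0
  · rw [h1, h1', ho.2 hμ]; simp
  · have : u = u' := by
      have : o.μ' * u = o.μ' * u' := by linarith
      exact mul_left_cancel₀ hμ this
    rw [h1, h1', this]

end Op

/-- An instruction: a diagonal partial affine map of `R → ℤ`. -/
abbrev AInstr (R : Type*) := R → Op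

namespace AInstr
variable {R : Type*}

/-- the graph of an instruction -/
def Rel (I : AInstr R) (α β : R → ℤ) : Prop := ∀ r, (I r).Rel (α r) (β r)

/-- all coordinates valid -/
def Valid (I : AInstr R) : Prop := ∀ r, (I r).Valid

/-- the domain of an instruction -/
def Dom (I : AInstr R) (α : R → ℤ) : Prop := ∃ β, I.Rel α β

theorem Rel.unique {I : AInstr R} (hI : I.Valid) {α β β' : R → ℤ} (h : I.Rel α β)
    (h' : I.Rel α β') : β = β' :=
  funext fun r => (h r).unique (hI r) (h' r)

theorem Rel.unique_left {I : AInstr R} (hI : I.Valid) {α α' β : R → ℤ} (h : I.Rel α β)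
    (h' : I.Rel α' β) : α = α' :=
  funext fun r => (h r).unique_left (hI r) (h' r)

/-- `Rel` in the vector form `α = a + μ u`, `β = b + μ' u`. -/
theorem rel_iff_exists {I : AInstr R} {α β : R → ℤ} :
    I.Rel α β ↔ ∃ u : R → ℤ, (∀ r, α r = (I r).a + (I r).μ * u r) ∧
      ∀ r, β r = (I r).b + (I r).μ' * u r := by
  constructor
  · intro h
    choose u hu using h
    exact ⟨u, fun r => (hu r).1, fun r => (hu r).2⟩
  · rintro ⟨u, h1, h2⟩ r
    exact ⟨u r, h1 r, h2 r⟩

end AInstr

/-- one step of a family of instructions -/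
def AStep {R ι : Type*} (ins : ι → AInstr R) (α β : R → ℤ) : Prop := ∃ i, (ins i).Rel α β

/-- reachability -/
def AReaches {R ι : Type*} (ins : ι → AInstr R) : (R → ℤ) → (R → ℤ) → Prop :=
  Relation.ReflTransGen (AStep ins)

/-- a family of instructions is deterministic if the domains are pairwise disjoint -/
def ADet {R ι : Type*} (ins : ι → AInstr R) : Prop :=
  ∀ i i' α, (ins i).Dom α → (ins i').Dom α → i = i'

theorem AStep.unique {R ι : Type*} {ins : ι → AInstr R} (hv : ∀ i, (ins i).Valid) (hd : ADet ins)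
    {α β β' : R → ℤ} (h : AStep ins α β) (h' : AStep ins α β') : β = β' := by
  obtain ⟨i, hi⟩ := h
  obtain ⟨i', hi'⟩ := h'
  obtain rfl := hd i i' α ⟨_, hi⟩ ⟨_, hi'⟩
  exact hi.unique (hv i) hi'

/-- For a deterministic family and a terminal `ω`: the equivalence relation generated by the steps
relates `α` to `ω` iff `α` reaches `ω`. -/
theorem eqvGen_iff_reaches {R ι : Type*} {ins : ι → AInstr R} (hv : ∀ i, (ins i).Valid)
    (hd : ADet ins) {ω : R → ℤ} (hω : ∀ β, ¬ AStep ins ω β) (α : R → ℤ) :
    Relation.EqvGen (AStep ins) α ω ↔ AReaches ins α ω := by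
  constructor
  · intro h
    have key : ∀ a b, Relation.EqvGen (AStep ins) a b → (AReaches ins a ω ↔ AReaches ins b ω) := by
      intro a b hab
      induction hab with
      | rel a b hab =>
        constructor
        · intro ha
          rcases Relation.ReflTransGen.cases_head ha with rfl | ⟨c, hac, hc⟩
          · exact absurd hab (hω _)
          · rwa [AStep.unique hv hd hab hac]
        · intro hb
          exact Relation.ReflTransGen.head hab hb
      | refl a => exact Iff.rfl
      | symm a b _ ih => exact ih.symm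
      | trans a b c _ _ ih1 ih2 => exact ih1.trans ih2
    exact (key α ω h).2 Relation.ReflTransGen.refl
  · intro h
    induction h using Relation.ReflTransGen.head_induction_on with
    | refl => exact Relation.EqvGen.refl _
    | head hab _ ih => exact Relation.EqvGen.trans _ _ _ (Relation.EqvGen.rel _ _ hab) ih

end Claimed.Agent.R152.MC
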