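/-
Row 152, module MC (machine chain), part 2: micro-step stack machines.

States `Q`, stacks indexed by `K`, one alphabet `Γ`.  The program `P : Q → Instr Q K Γ` gives ONE
elementary instruction per state.
-/
import Mathlib

set_option autoImplicit false

namespace Claimed.Agent.R152.MC

/-- elementary instructions of a stack machine -/
inductive Instr (Q K Γ : Type*)
  | push (k : K) (s : Γ) (q : Q)
  | pop (k : K) (f : Option Γ → Q)
  | peek (k : K) (f : Option Γ → Q)
  | nop (q : Q)
  | halt

/-- configurations of a stack machine -/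
@[ext] structure SCfg (Q K Γ : Type*) where
  q : Q
  stk : K → List Γ

namespace SM
variable {Q K Γ : Type*} [DecidableEq K]

/-- the effect of one instruction -/
def stepI : Instr Q K Γ → (K → List Γ) → Option (SCfg Q K Γ)
  | .push k s q, T => some ⟨q, Function.update T k (s :: T k)⟩
  | .pop k f, T => some ⟨f (T k).head?, Function.update T k (T k).tail⟩
  | .peek k f, T => some ⟨f (T k).head?, T⟩
  | .nop q, T => some ⟨q, T⟩
  | .halt, _ => none

/-- the step function -/
def step (P : Q → Instr Q K Γ) (c : SCfg Q K Γ) : Option (SCfg Q K Γ) := stepI (P c.q) c.stk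

/-- reachability -/
def Reaches (P : Q → Instr Q K Γ) : SCfg Q K Γ → SCfg Q K Γ → Prop :=
  Relation.ReflTransGen fun a b => b ∈ step P a

end SM

namespace Instr
variable {Q Q' K Γ : Type*}

/-- all successor states lie in `S` -/
def Closed (S : Set Q) : Instr Q K Γ → Prop
  | .push _ _ q => q ∈ S
  | .pop _ f => ∀ o, f o ∈ S
  | .peek _ f => ∀ o, f o ∈ S
  | .nop q => q ∈ S
  | .halt => True

/-- restriction of an instruction to a closed set of states -/
def restrict (S : Set Q) : (i : Instr Q K Γ) → i.Closed S → Instr S K Γ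
  | .push k s q, h => .push k s ⟨q, h⟩
  | .pop k f, h => .pop k fun o => ⟨f o, h o⟩
  | .peek k f, h => .peek k fun o => ⟨f o, h o⟩
  | .nop q, h => .nop ⟨q, h⟩
  | .halt, _ => .halt

end Instr

namespace SM
variable {Q K Γ : Type*} [DecidableEq K]

/-- restriction of a program to a closed set of states -/
def restrict (P : Q → Instr Q K Γ) (S : Set Q) (h : ∀ q ∈ S, (P q).Closed S) :
    S → Instr S K Γ := fun q => (P q.1).restrict S (h q.1 q.2)

/-- forget the membership proof -/
def SCfg.val {S : Set Q} (c : SCfg S K Γ) : SCfg Q K Γ := ⟨c.q.1, c.stk⟩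

theorem step_restrict (P : Q → Instr Q K Γ) (S : Set Q) (h : ∀ q ∈ S, (P q).Closed S)
    (c : SCfg S K Γ) : (step (restrict P S h) c).map SCfg.val = step P (SCfg.val c) := by
  have key : ∀ (i : Instr Q K Γ) (hi : i.Closed S) (T : K → List Γ),
      (stepI (i.restrict S hi) T).map SCfg.val = stepI i T := by
    intro i hi T
    cases i <;> simp [Instr.restrict, SCfg.val, stepI]
  exact key _ _ _

theorem reaches_restrict (P : Q → Instr Q K Γ) (S : Set Q) (h : ∀ q ∈ S, (P q).Closed S)
    (c d : SCfg S K Γ) :
    Reaches (restrict P S h) c d ↔ Reaches P (SCfg.val c) (SCfg.val d) := by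
  have hinj : ∀ a b : SCfg S K Γ, SCfg.val a = SCfg.val b → a = b := by
    rintro ⟨⟨q, hq⟩, T⟩ ⟨⟨q', hq'⟩, T'⟩ hab
    simp only [SCfg.val, SCfg.mk.injEq] at hab
    obtain ⟨rfl, rfl⟩ := hab
    rfl
  constructor
  · intro hcd
    induction hcd with
    | refl => exact Relation.ReflTransGen.refl
    | tail _ hab ih =>
      refine ih.tail ?_
      rw [← step_restrict P S h, Option.mem_def.1 hab]
      rfl
  · intro hcd
    suffices H : ∀ e, Reaches P (SCfg.val c) e → ∃ d', e = SCfg.val d' ∧
        Reaches (restrict P S h) c d' by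
      obtain ⟨d', h1, h2⟩ := H _ hcd
      rwa [hinj _ _ h1]
    intro e he
    induction he with
    | refl => exact ⟨c, rfl, Relation.ReflTransGen.refl⟩
    | tail _ hab ih =>
      obtain ⟨d', rfl, h2⟩ := ih
      rw [← step_restrict P S h] at hab
      simp only [Option.mem_def, Option.map_eq_some_iff] at hab
      obtain ⟨e', he', rfl⟩ := hab
      exact ⟨e', rfl, h2.tail he'⟩

end SM

end Claimed.Agent.R152.MC
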