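/-
Row 152, module MC (machine chain), part 4: a micro-step stack machine is simulated by an affine
machine with FUEL.  Registers: state, fuel, one register per stack (base `m`, digits `1..m-1`,
empty stack `= 0`).  Every run instruction pops one fuel digit `1`.
-/
import Claimed.Agent.R152.MC.Aff
import Claimed.Agent.R152.MC.Stack

set_option autoImplicit false
set_option linter.unusedSectionVars false

namespace Claimed.Agent.R152.MC

/-- the registers -/
inductive Reg (K : Type*)
  | st
  | fuel
  | stk (k : K)
  deriving DecidableEq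

/-- numerical coding of states and stack symbols; the state codes `0`, `1` are reserved for the
two input states. -/
structure Coding (Q Γ : Type*) where
  m : ℤ
  hm : 3 ≤ m
  code : Q → ℤ
  code_inj : Function.Injective code
  code_ge : ∀ q, 2 ≤ code q
  dig : Γ → ℤ
  dig_inj : Function.Injective dig
  dig_pos : ∀ s, 0 < dig s
  dig_lt : ∀ s, dig s < m
  dig_lt2 : ∀ s, dig s + 1 < m

namespace Coding

/-- a coding exists for finite `Q`, `Γ` -/
theorem exists_coding (Q Γ : Type*) [Finite Q] [Finite Γ] : Nonempty (Coding Q Γ) := by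
  classical
  cases nonempty_fintype Q
  cases nonempty_fintype Γ
  refine ⟨{ m := (Fintype.card Γ : ℤ) + 3
            hm := by omega
            code := fun q => ((Fintype.equivFin Q q : ℕ) : ℤ) + 2
            code_inj := ?_
            code_ge := fun q => by omega
            dig := fun s => ((Fintype.equivFin Γ s : ℕ) : ℤ) + 1
            dig_inj := ?_
            dig_pos := fun s => by omega
            dig_lt := fun s => by have := (Fintype.equivFin Γ s).2; omega
            dig_lt2 := fun s => by have := (Fintype.equivFin Γ s).2; omega }⟩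
  · intro a b h
    have : ((Fintype.equivFin Q a : ℕ) : ℤ) = (Fintype.equivFin Q b : ℕ) := by simpa using h
    exact (Fintype.equivFin Q).injective (Fin.ext (by exact_mod_cast this))
  · intro a b h
    have : ((Fintype.equivFin Γ a : ℕ) : ℤ) = (Fintype.equivFin Γ b : ℕ) := by simpa using h
    exact (Fintype.equivFin Γ).injective (Fin.ext (by exact_mod_cast this))

variable {Q Γ : Type*} (C : Coding Q Γ)

/-- the value of a stack -/
def enc : List Γ → ℤ
  | [] => 0
  | s :: l => C.m * enc l + C.dig s

@[simp] theorem enc_nil : C.enc [] = 0 := rfl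
@[simp] theorem enc_cons (s : Γ) (l : List Γ) : C.enc (s :: l) = C.m * C.enc l + C.dig s := rfl

/-- the value of `n` units of fuel -/
def fuelVal : ℕ → ℤ
  | 0 => 0
  | n + 1 => C.m * fuelVal n + 1

@[simp] theorem fuelVal_zero : C.fuelVal 0 = 0 := rfl
@[simp] theorem fuelVal_succ (n : ℕ) : C.fuelVal (n + 1) = C.m * C.fuelVal n + 1 := rfl

/-- two digit decompositions agree -/
theorem digit_unique {d d' u u' : ℤ} (hd : 0 ≤ d) (hd' : 0 ≤ d') (hdm : d < C.m) (hdm' : d' < C.m)
    (h : C.m * u + d = C.m * u' + d') : u = u' ∧ d = d' := by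
  have hm := C.hm
  have h1 : C.m * (u - u') = d' - d := by ring_nf; linarith
  have h2 : u - u' = 0 := by
    by_contra hne
    have h3 : C.m ≤ |C.m * (u - u')| := by
      rw [abs_mul, abs_of_pos (by linarith : (0 : ℤ) < C.m)]
      have : 1 ≤ |u - u'| := Int.one_le_abs hne
      nlinarith
    rw [h1] at h3
    have : |d' - d| < C.m := by rw [abs_lt]; constructor <;> linarith
    linarith
  have h3 : u = u' := by linarith
  subst h3
  exact ⟨rfl, by linarith⟩

theorem enc_inj : Function.Injective C.enc := by
  intro l
  induction l with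
  | nil =>
    intro l' h
    cases l' with
    | nil => rfl
    | cons s l' =>
      exfalso
      have := C.digit_unique (d := 0) (d' := C.dig s) (u := 0) (u' := C.enc l') le_rfl
        (C.dig_pos s).le (by linarith [C.hm]) (C.dig_lt s) (by simpa using h)
      linarith [this.2, C.dig_pos s]
  | cons s l ih =>
    intro l' h
    cases l' with
    | nil =>
      exfalso
      have := C.digit_unique (d := 0) (d' := C.dig s) (u := 0) (u' := C.enc l) le_rfl
        (C.dig_pos s).le (by linarith [C.hm]) (C.dig_lt s) (by simpa using h.symm)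
      linarith [this.2, C.dig_pos s]
    | cons s' l' =>
      have := C.digit_unique (C.dig_pos s).le (C.dig_pos s').le (C.dig_lt s) (C.dig_lt s') h
      rw [ih this.1, C.dig_inj this.2]

/-- popping a fuel digit strictly decreases the absolute value, on all of `ℤ` -/
theorem abs_lt_of_fuel {x y : ℤ} (h : x = C.m * y + 1) : |y| < |x| := by
  have hm := C.hm
  subst h
  rcases le_or_gt 0 y with hy | hy
  · rw [abs_of_nonneg hy, abs_of_nonneg (by nlinarith)]
    nlinarith
  · rw [abs_of_neg hy, abs_of_neg (by nlinarith)]
    nlinarith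

theorem fuel_ne_zero {y : ℤ} : (0 : ℤ) ≠ C.m * y + 1 := by
  intro h
  have := C.abs_lt_of_fuel h
  simp at this
  exact absurd this (not_lt.2 (abs_nonneg y))

end Coding

namespace SMAff
variable {Q K Γ : Type*} [DecidableEq K] (C : Coding Q Γ)

/-- a run instruction: state `c ↦ c'` (exact), one fuel digit is popped, `f` on the stacks -/
def mk (c c' : ℤ) (f : K → Op) : AInstr (Reg K)
  | .st => Op.exact c c'
  | .fuel => Op.pop C.m 1
  | .stk k => f k

/-- `o` on the stack `k`, identity elsewhere -/
def one (k : K) (o : Op) : K → Op := Function.update (fun _ => Op.idn) k o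

/-- pop with observed top symbol `o` -/
def popOp : Option Γ → Op
  | some s => Op.pop C.m (C.dig s)
  | none => Op.exact 0 0

/-- peek with observed top symbol `o` -/
def testOp : Option Γ → Op
  | some s => Op.test C.m (C.dig s)
  | none => Op.exact 0 0

/-- which observations give an instruction -/
def Active : Instr Q K Γ → Option Γ → Prop
  | .push _ _ _, o => o = none
  | .pop _ _, _ => True
  | .peek _ _, _ => True
  | .nop _, o => o = none
  | .halt, _ => False

/-- the affine instruction of a stack machine instruction at a state with code `c` -/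
def insI (c : ℤ) : Instr Q K Γ → Option Γ → AInstr (Reg K)
  | .push k s q, _ => mk C c (C.code q) (one k (Op.push C.m (C.dig s)))
  | .pop k f, o => mk C c (C.code (f o)) (one k (popOp C o))
  | .peek k f, o => mk C c (C.code (f o)) (one k (testOp C o))
  | .nop q, _ => mk C c (C.code q) fun _ => Op.idn
  | .halt, _ => mk C c c fun _ => Op.idn

/-- indices of the run instructions -/
inductive RIdx (P : Q → Instr Q K Γ)
  | go
  | burn
  | ins (q : Q) (o : Option Γ) (h : Active (P q) o)

variable (P : Q → Instr Q K Γ) (qi qf : Q)

/-- the run instructions: `go` leaves the input state `1`, `burn` burns fuel in the final state -/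
def run : RIdx P → AInstr (Reg K)
  | .go => mk C 1 (C.code qi) fun _ => Op.idn
  | .burn => mk C (C.code qf) (C.code qf) fun _ => Op.idn
  | .ins q o _ => insI C (C.code q) (P q) o

/-- the vector of a configuration with `n` units of fuel -/
def encCfg (c : SCfg Q K Γ) (n : ℕ) : Reg K → ℤ
  | .st => C.code c.q
  | .fuel => C.fuelVal n
  | .stk k => C.enc (c.stk k)

/-- the vector of an input configuration (state `1`) -/
def inCfg (T : K → List Γ) (n : ℕ) : Reg K → ℤ
  | .st => 1
  | .fuel => C.fuelVal n
  | .stk k => C.enc (T k)

theorem rel_mk {c c' : ℤ} {f : K → Op} {α β : Reg K → ℤ} :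
    (mk C c c' f).Rel α β ↔ α .st = c ∧ β .st = c' ∧ α .fuel = C.m * β .fuel + 1 ∧
      ∀ k, (f k).Rel (α (.stk k)) (β (.stk k)) := by
  constructor
  · intro h
    have h1 := h .st
    have h2 := h .fuel
    simp only [mk, Op.rel_exact, Op.rel_pop] at h1 h2
    exact ⟨h1.1, h1.2, h2, fun k => h (.stk k)⟩
  · rintro ⟨h1, h2, h3, h4⟩ r
    cases r with
    | st => simp [mk, h1, h2]
    | fuel => simp [mk, h3]
    | stk k => exact h4 k

theorem rel_one {k : K} {o : Op} {x y : K → ℤ} :
    (∀ k', (one k o k').Rel (x k') (y k')) ↔ o.Rel (x k) (y k) ∧ ∀ k', k' ≠ k → y k' = x k' := by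
  constructor
  · intro h
    refine ⟨by simpa [one] using h k, fun k' hk => ?_⟩
    simpa [one, hk] using h k'
  · rintro ⟨h1, h2⟩ k'
    by_cases hk : k' = k
    · subst hk; simpa [one] using h1
    · simpa [one, hk] using h2 k' hk

theorem valid_mk {c c' : ℤ} {f : K → Op} (hf : ∀ k, (f k).Valid) : (mk C c c' f).Valid := by
  have hm : C.m ≠ 0 := by have := C.hm; omega
  intro r
  cases r with
  | st => exact Op.valid_exact _ _
  | fuel => exact Op.valid_pop hm _
  | stk k => exact hf k

theorem valid_one {k : K} {o : Op} (ho : o.Valid) : ∀ k', (one k o k').Valid := by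
  intro k'
  by_cases hk : k' = k
  · subst hk; simpa [one] using ho
  · simpa [one, hk] using Op.valid_idn

theorem valid_insI (c : ℤ) (I : Instr Q K Γ) (o : Option Γ) : (insI C c I o).Valid := by
  have hm : C.m ≠ 0 := by have := C.hm; omega
  cases I with
  | push k s q => exact valid_mk C (valid_one (Op.valid_push hm _))
  | pop k f =>
    refine valid_mk C (valid_one ?_)
    cases o with
    | none => exact Op.valid_exact _ _
    | some s => exact Op.valid_pop hm _
  | peek k f =>
    refine valid_mk C (valid_one ?_)
    cases o with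
    | none => exact Op.valid_exact _ _
    | some s => exact Op.valid_test _ _
  | nop q => exact valid_mk C fun _ => Op.valid_idn
  | halt => exact valid_mk C fun _ => Op.valid_idn

theorem valid_run (i : RIdx P) : (run C P qi qf i).Valid := by
  cases i with
  | go => exact valid_mk C fun _ => Op.valid_idn
  | burn => exact valid_mk C fun _ => Op.valid_idn
  | ins q o h => exact valid_insI C _ _ _

/-- every run instruction tests the state exactly and pops one fuel digit -/
theorem insI_src {c : ℤ} {I : Instr Q K Γ} {o : Option Γ} {α β : Reg K → ℤ}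
    (h : (insI C c I o).Rel α β) : α .st = c ∧ α .fuel = C.m * β .fuel + 1 := by
  cases I <;> exact ⟨((rel_mk C).1 h).1, ((rel_mk C).1 h).2.2.1⟩

theorem run_fuel {i : RIdx P} {α β : Reg K → ℤ} (h : (run C P qi qf i).Rel α β) :
    α .fuel = C.m * β .fuel + 1 := by
  cases i with
  | go => exact ((rel_mk C).1 h).2.2.1
  | burn => exact ((rel_mk C).1 h).2.2.1
  | ins q o h' => exact (insI_src C h).2

/-- (M2) termination on all of `ℤ^R` -/
theorem step_fuel_lt {α β : Reg K → ℤ} (h : AStep (run C P qi qf) α β) :
    |β .fuel| < |α .fuel| := by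
  obtain ⟨i, hi⟩ := h
  exact C.abs_lt_of_fuel (run_fuel C P qi qf hi)

/-- (M3) a vector with fuel `0` is terminal -/
theorem terminal_of_fuel_zero {α : Reg K → ℤ} (h : α .fuel = 0) (β : Reg K → ℤ) :
    ¬ AStep (run C P qi qf) α β := by
  rintro ⟨i, hi⟩
  have := run_fuel C P qi qf hi
  rw [h] at this
  exact C.fuel_ne_zero this

theorem popOp_obs {o o' : Option Γ} {x y y' : ℤ} (h : (popOp C o).Rel x y)
    (h' : (popOp C o').Rel x y') : o = o' := by
  have hm := C.hm
  cases o with
  | none =>
    cases o' with
    | none => rfl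
    | some s' =>
      exfalso
      simp only [popOp, Op.rel_exact, Op.rel_pop] at h h'
      have := C.digit_unique (d := 0) (d' := C.dig s') (u := 0) (u' := y') le_rfl
        (C.dig_pos s').le (by linarith) (C.dig_lt s') (by rw [← h', h.1]; simp)
      linarith [this.2, C.dig_pos s']
  | some s =>
    cases o' with
    | none =>
      exfalso
      simp only [popOp, Op.rel_exact, Op.rel_pop] at h h'
      have := C.digit_unique (d := 0) (d' := C.dig s) (u := 0) (u' := y) le_rfl
        (C.dig_pos s).le (by linarith) (C.dig_lt s) (by rw [← h, h'.1]; simp)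
      linarith [this.2, C.dig_pos s]
    | some s' =>
      simp only [popOp, Op.rel_pop] at h h'
      have := C.digit_unique (C.dig_pos s).le (C.dig_pos s').le (C.dig_lt s) (C.dig_lt s')
        (h.symm.trans h')
      rw [C.dig_inj this.2]

theorem testOp_pop {o : Option Γ} {x y : ℤ} (h : (testOp C o).Rel x y) :
    ∃ z, (popOp C o).Rel x z := by
  cases o with
  | none => exact ⟨y, h⟩
  | some s =>
    simp only [testOp, Op.rel_test] at h
    obtain ⟨-, u, hu⟩ := h
    exact ⟨u, by simpa [popOp] using hu⟩

theorem testOp_obs {o o' : Option Γ} {x y y' : ℤ} (h : (testOp C o).Rel x y)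
    (h' : (testOp C o').Rel x y') : o = o' := by
  obtain ⟨z, hz⟩ := testOp_pop C h
  obtain ⟨z', hz'⟩ := testOp_pop C h'
  exact popOp_obs C hz hz'

theorem insI_obs {c : ℤ} {I : Instr Q K Γ} {o o' : Option Γ} {α β β' : Reg K → ℤ}
    (ha : Active I o) (ha' : Active I o') (h : (insI C c I o).Rel α β)
    (h' : (insI C c I o').Rel α β') : o = o' := by
  cases I with
  | push k s q1 => rw [show o = none from ha, show o' = none from ha']
  | nop q1 => rw [show o = none from ha, show o' = none from ha']
  | halt => exact ha.elim
  | pop k f =>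
    exact popOp_obs C (rel_one.1 ((rel_mk C).1 h).2.2.2).1 (rel_one.1 ((rel_mk C).1 h').2.2.2).1
  | peek k f =>
    exact testOp_obs C (rel_one.1 ((rel_mk C).1 h).2.2.2).1 (rel_one.1 ((rel_mk C).1 h').2.2.2).1

/-- (M1) determinism on all of `ℤ^R` -/
theorem det_run (hf : P qf = .halt) : ADet (run C P qi qf) := by
  rintro i i' α ⟨β, h⟩ ⟨β', h'⟩
  cases i with
  | go =>
    have h1 := ((rel_mk C).1 h).1
    cases i' with
    | go => rfl
    | burn =>
      have h2 := ((rel_mk C).1 h').1
      have := C.code_ge qf
      omega
    | ins q o ha =>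
      have h2 := (insI_src C h').1
      have := C.code_ge q
      omega
  | burn =>
    have h1 := ((rel_mk C).1 h).1
    cases i' with
    | go =>
      have h2 := ((rel_mk C).1 h').1
      have := C.code_ge qf
      omega
    | burn => rfl
    | ins q o ha =>
      have h2 := (insI_src C h').1
      have : q = qf := C.code_inj (h2.symm.trans h1)
      subst this
      rw [hf] at ha
      exact ha.elim
  | ins q o ha =>
    have h1 := (insI_src C h).1
    cases i' with
    | go =>
      have h2 := ((rel_mk C).1 h').1
      have := C.code_ge q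
      omega
    | burn =>
      have h2 := ((rel_mk C).1 h').1
      have : q = qf := C.code_inj (h1.symm.trans h2)
      subst this
      rw [hf] at ha
      exact ha.elim
    | ins q' o' ha' =>
      have h2 := (insI_src C h').1
      have : q = q' := C.code_inj (h1.symm.trans h2)
      subst this
      have : o = o' := insI_obs C ha ha' h h'
      subst this
      rfl

/-- forward simulation -/
theorem step_sim {c c' : SCfg Q K Γ} (h : SM.step P c = some c') (n : ℕ) :
    AStep (run C P qi qf) (encCfg C c (n + 1)) (encCfg C c' n) := by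
  obtain ⟨q, T⟩ := c
  simp only [SM.step] at h
  cases hP : P q with
  | push k s q1 =>
    rw [hP] at h
    simp only [SM.stepI, Option.some.injEq] at h
    subst h
    refine ⟨.ins q none (by rw [hP]; rfl), ?_⟩
    simp only [run, hP, insI]
    refine (rel_mk C).2 ⟨rfl, rfl, rfl, rel_one.2 ⟨?_, fun k' hk => ?_⟩⟩
    · simp [encCfg]
    · simp [encCfg, hk]
  | pop k f =>
    rw [hP] at h
    simp only [SM.stepI, Option.some.injEq] at h
    subst h
    refine ⟨.ins q (T k).head? (by rw [hP]; trivial), ?_⟩
    simp only [run, hP, insI]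
    refine (rel_mk C).2 ⟨rfl, rfl, rfl, rel_one.2 ⟨?_, fun k' hk => ?_⟩⟩
    · cases hT : T k <;> simp [encCfg, popOp, hT]
    · simp [encCfg, hk]
  | peek k f =>
    rw [hP] at h
    simp only [SM.stepI, Option.some.injEq] at h
    subst h
    refine ⟨.ins q (T k).head? (by rw [hP]; trivial), ?_⟩
    simp only [run, hP, insI]
    refine (rel_mk C).2 ⟨rfl, rfl, rfl, rel_one.2 ⟨?_, fun k' hk => rfl⟩⟩
    cases hT : T k with
    | nil => simp [encCfg, testOp, hT]
    | cons s l =>
      simp only [encCfg, testOp, hT, List.head?_cons, Op.rel_test, true_and]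
      exact ⟨_, rfl⟩
  | nop q1 =>
    rw [hP] at h
    simp only [SM.stepI, Option.some.injEq] at h
    subst h
    refine ⟨.ins q none (by rw [hP]; rfl), ?_⟩
    simp only [run, hP, insI]
    exact (rel_mk C).2 ⟨rfl, rfl, rfl, fun k => by simp [encCfg]⟩
  | halt =>
    rw [hP] at h
    simp [SM.stepI] at h

theorem step_burn {c : SCfg Q K Γ} (h : c.q = qf) (n : ℕ) :
    AStep (run C P qi qf) (encCfg C c (n + 1)) (encCfg C c n) := by
  refine ⟨.burn, (rel_mk C).2 ⟨by simp [encCfg, h], by simp [encCfg, h], rfl, fun k => ?_⟩⟩
  simp [encCfg]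

theorem step_go (T : K → List Γ) (n : ℕ) :
    AStep (run C P qi qf) (inCfg C T (n + 1)) (encCfg C ⟨qi, T⟩ n) :=
  ⟨.go, (rel_mk C).2 ⟨rfl, rfl, rfl, fun k => by simp [encCfg, inCfg]⟩⟩

theorem encCfg_inj {c d : SCfg Q K Γ} {n n' : ℕ} (h : encCfg C c n = encCfg C d n') : c = d := by
  have h1 : C.code c.q = C.code d.q := congrFun h .st
  have h2 : ∀ k, C.enc (c.stk k) = C.enc (d.stk k) := fun k => congrFun h (.stk k)
  exact SCfg.ext (C.code_inj h1) (funext fun k => C.enc_inj (h2 k))

/-- a halted configuration can only burn fuel, and only in the final state -/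
theorem step_of_halt {c : SCfg Q K Γ} (h : SM.step P c = none) {n : ℕ} {β : Reg K → ℤ}
    (hs : AStep (run C P qi qf) (encCfg C c n) β) : c.q = qf := by
  obtain ⟨i, hi⟩ := hs
  cases i with
  | go =>
    have h1 : C.code c.q = 1 := ((rel_mk C).1 hi).1
    have := C.code_ge c.q
    omega
  | burn => exact C.code_inj ((rel_mk C).1 hi).1
  | ins q o ha =>
    exfalso
    have h1 : C.code c.q = C.code q := (insI_src C hi).1
    have h2 := C.code_inj h1
    subst h2
    simp only [SM.step] at h
    clear hi
    revert ha h
    cases P c.q <;> simp [SM.stepI, Active]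

/-- MAIN SIMULATION THEOREM: with enough fuel `c` reaches the halted final configuration `d`
(with no fuel left) iff the stack machine goes from `c` to `d`. -/
theorem reaches_iff (hf : P qf = .halt) (c d : SCfg Q K Γ) :
    (∃ n, AReaches (run C P qi qf) (encCfg C c n) (encCfg C d 0)) ↔ SM.Reaches P c d := by
  constructor
  · rintro ⟨n, hn⟩
    induction n generalizing c with
    | zero =>
      rcases Relation.ReflTransGen.cases_head hn with h | ⟨β, h, -⟩
      · rw [encCfg_inj C h]; exact Relation.ReflTransGen.refl
      · exact absurd h (terminal_of_fuel_zero C P qi qf rfl β)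
    | succ n ih =>
      rcases Relation.ReflTransGen.cases_head hn with h | ⟨β, h, hβ⟩
      · rw [encCfg_inj C h]; exact Relation.ReflTransGen.refl
      · cases hs : SM.step P c with
        | some c' =>
          have := AStep.unique (valid_run C P qi qf) (det_run C P qi qf hf) h
            (step_sim C P qi qf hs n)
          rw [this] at hβ
          exact Relation.ReflTransGen.head hs (ih c' hβ)
        | none =>
          have hq := step_of_halt C P qi qf hs h
          have := AStep.unique (valid_run C P qi qf) (det_run C P qi qf hf) h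
            (step_burn C P qi qf hq n)
          rw [this] at hβ
          exact ih c hβ
  · intro h
    induction h using Relation.ReflTransGen.head_induction_on with
    | refl => exact ⟨0, Relation.ReflTransGen.refl⟩
    | head hab _ ih =>
      obtain ⟨n, hn⟩ := ih
      exact ⟨n + 1, Relation.ReflTransGen.head (step_sim C P qi qf hab n) hn⟩

/-- more fuel does not hurt -/
theorem reaches_mono {c d : SCfg Q K Γ} (hd : d.q = qf) (h : SM.Reaches P c d) :
    ∃ n₀, ∀ n, n₀ ≤ n → AReaches (run C P qi qf) (encCfg C c n) (encCfg C d 0) := by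
  induction h using Relation.ReflTransGen.head_induction_on with
  | refl =>
    refine ⟨0, fun n _ => ?_⟩
    clear * - hd
    induction n with
    | zero => exact Relation.ReflTransGen.refl
    | succ n ih => exact Relation.ReflTransGen.head (step_burn C P qi qf hd n) ih
  | head hab _ ih =>
    obtain ⟨n₀, hn⟩ := ih
    refine ⟨n₀ + 1, fun n hn' => ?_⟩
    obtain ⟨n, rfl⟩ : ∃ k, n = k + 1 := ⟨n - 1, by omega⟩
    exact Relation.ReflTransGen.head (step_sim C P qi qf hab n) (hn n (by omega))

/-- acceptance from the input state -/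
theorem accepts_iff (hf : P qf = .halt) (T : K → List Γ) (d : SCfg Q K Γ) :
    (∃ n, AReaches (run C P qi qf) (inCfg C T n) (encCfg C d 0)) ↔ SM.Reaches P ⟨qi, T⟩ d := by
  rw [← reaches_iff C P qi qf hf _ d]
  constructor
  · rintro ⟨n, hn⟩
    rcases Relation.ReflTransGen.cases_head hn with h | ⟨β, h, hβ⟩
    · exfalso
      have h1 : (1 : ℤ) = C.code d.q := congrFun h .st
      have := C.code_ge d.q
      omega
    · cases n with
      | zero => exact absurd h (terminal_of_fuel_zero C P qi qf rfl β)
      | succ n =>
        have := AStep.unique (valid_run C P qi qf) (det_run C P qi qf hf) h (step_go C P qi qf T n)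
        rw [this] at hβ
        exact ⟨n, hβ⟩
  · rintro ⟨n, hn⟩
    exact ⟨n + 1, Relation.ReflTransGen.head (step_go C P qi qf T n) hn⟩

end SMAff

end Claimed.Agent.R152.MC
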