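/-
Row 152, module MC (machine chain), part 3: a `TM2` machine (all stacks over one alphabet) is
simulated by a micro-step stack machine; after the `TM2` machine has halted the stack `k₀` is
emptied and the machine stops in the state `none`.
-/
import Claimed.Agent.R152.MC.Stack

set_option autoImplicit false
set_option linter.unusedSectionVars false

open Turing StateTransition

namespace Claimed.Agent.R152.MC
namespace TM2SM

variable {K : Type*} [DecidableEq K] {Γ Λ σ : Type*}

/-- states of the micro-step machine: `none` = final; `some (none, v)` = cleaning;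
`some (some q, v)` = about to execute the statement `q`. -/
abbrev St (K Γ Λ σ : Type*) := Option (Option (TM2.Stmt (fun _ : K => Γ) Λ σ) × σ)

/-- the program -/
def prog (M : Λ → TM2.Stmt (fun _ : K => Γ) Λ σ) (k₀ : K) :
    St K Γ Λ σ → Instr (St K Γ Λ σ) K Γ
  | none => .halt
  | some (none, v) => .pop k₀ fun o => if o.isSome then some (none, v) else none
  | some (some (.push k f q), v) => .push k (f v) (some (some q, v))
  | some (some (.peek k f q), v) => .peek k fun o => some (some q, f v o)
  | some (some (.pop k f q), v) => .pop k fun o => some (some q, f v o)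
  | some (some (.load a q), v) => .nop (some (some q, a v))
  | some (some (.branch f q₁ q₂), v) => .nop (some (some (cond (f v) q₁ q₂), v))
  | some (some (.goto f), v) => .nop (some (some (M (f v)), v))
  | some (some .halt, v) => .nop (some (none, v))

variable (M : Λ → TM2.Stmt (fun _ : K => Γ) Λ σ) (k₀ : K)

/-- translation of configurations -/
def trCfg (c : TM2.Cfg (fun _ : K => Γ) Λ σ) : SCfg (St K Γ Λ σ) K Γ :=
  ⟨some (c.l.map M, c.var), c.stk⟩

theorem reaches_stepAux (q : TM2.Stmt (fun _ : K => Γ) Λ σ) (v : σ) (S : K → List Γ) :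
    Reaches (SM.step (prog M k₀)) ⟨some (some q, v), S⟩ (trCfg M (TM2.stepAux q v S)) := by
  induction q generalizing v S with
  | push k f q ih => exact Relation.ReflTransGen.head rfl (ih _ _)
  | peek k f q ih => exact Relation.ReflTransGen.head rfl (ih _ _)
  | pop k f q ih => exact Relation.ReflTransGen.head rfl (ih _ _)
  | load a q ih => exact Relation.ReflTransGen.head rfl (ih _ _)
  | branch f q₁ q₂ ih₁ ih₂ =>
    refine Relation.ReflTransGen.head (b := ⟨some (some (cond (f v) q₁ q₂), v), S⟩) rfl ?_
    rw [TM2.stepAux]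
    cases f v
    · exact ih₂ _ _
    · exact ih₁ _ _
  | goto f => exact Relation.ReflTransGen.single rfl
  | halt => exact Relation.ReflTransGen.single rfl

theorem reaches_trCfg {c d : TM2.Cfg (fun _ : K => Γ) Λ σ} (h : Reaches (TM2.step M) c d) :
    Reaches (SM.step (prog M k₀)) (trCfg M c) (trCfg M d) := by
  induction h with
  | refl => exact Relation.ReflTransGen.refl
  | @tail a b _ hab ih =>
    refine ih.trans ?_
    obtain ⟨l, v, S⟩ := a
    cases l with
    | none => simp [TM2.step] at hab
    | some l =>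
      simp only [TM2.step, Option.mem_def, Option.some.injEq] at hab
      subst hab
      exact reaches_stepAux M k₀ _ _ _

theorem reaches_clean (v : σ) (S : K → List Γ) :
    Reaches (SM.step (prog M k₀)) ⟨some (none, v), S⟩ ⟨none, Function.update S k₀ []⟩ := by
  generalize hl : S k₀ = l
  induction l generalizing S with
  | nil =>
    refine Relation.ReflTransGen.single ?_
    simp [SM.step, SM.stepI, prog, hl]
  | cons a l ih =>
    refine Relation.ReflTransGen.head (b := ⟨some (none, v), Function.update S k₀ l⟩) ?_ ?_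
    · simp [SM.step, SM.stepI, prog, hl]
    · have := ih (Function.update S k₀ l) (by simp)
      rwa [Function.update_idem] at this

theorem mem_eval_iff (q : TM2.Stmt (fun _ : K => Γ) Λ σ) (v : σ) (S : K → List Γ)
    (fin : SCfg (St K Γ Λ σ) K Γ) :
    fin ∈ eval (SM.step (prog M k₀)) ⟨some (some q, v), S⟩ ↔
      ∃ d ∈ eval (TM2.step M) (TM2.stepAux q v S), fin = ⟨none, Function.update d.stk k₀ []⟩ := by
  constructor
  · intro h
    suffices H : ∀ a : SCfg (St K Γ Λ σ) K Γ, fin ∈ eval (SM.step (prog M k₀)) a →
        ∀ q v S, a = ⟨some (some q, v), S⟩ →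
        ∃ d ∈ eval (TM2.step M) (TM2.stepAux q v S),
          fin = ⟨none, Function.update d.stk k₀ []⟩ from H _ h q v S rfl
    intro a h
    refine evalInduction h ?_
    intro a h ih q v S ha
    subst ha
    cases q with
    | push k f q => exact ih _ rfl q v _ rfl
    | peek k f q => exact ih _ rfl q _ _ rfl
    | pop k f q => exact ih _ rfl q _ _ rfl
    | load a q => exact ih _ rfl q _ _ rfl
    | branch f q₁ q₂ =>
      have := ih _ rfl (cond (f v) q₁ q₂) v S rfl
      rw [TM2.stepAux]
      cases hf : f v <;> simpa [hf] using this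
    | goto f =>
      obtain ⟨d, hd, rfl⟩ := ih _ rfl (M (f v)) v S rfl
      refine ⟨d, ?_, rfl⟩
      rw [TM2.stepAux]
      have h1 : Reaches (TM2.step M) ⟨some (f v), v, S⟩ (TM2.stepAux (M (f v)) v S) :=
        Relation.ReflTransGen.single rfl
      rwa [reaches_eval h1]
    | halt =>
      refine ⟨⟨none, v, S⟩, mem_eval.2 ⟨Relation.ReflTransGen.refl, rfl⟩, ?_⟩
      have h1 : Reaches (SM.step (prog M k₀)) ⟨some (some .halt, v), S⟩
          ⟨none, Function.update S k₀ []⟩ :=
        Relation.ReflTransGen.head (b := (⟨some (none, v), S⟩ : SCfg (St K Γ Λ σ) K Γ))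
          (show _ ∈ SM.step (prog M k₀) _ from rfl) (reaches_clean M k₀ v S)
      exact Part.mem_unique h (mem_eval.2 ⟨h1, rfl⟩)
  · rintro ⟨d, hd, rfl⟩
    obtain ⟨h1, h2⟩ := mem_eval.1 hd
    obtain ⟨l, w, T⟩ := d
    cases l with
    | some l => simp [TM2.step] at h2
    | none =>
      refine mem_eval.2 ⟨?_, rfl⟩
      exact ((reaches_stepAux M k₀ q v S).trans (reaches_trCfg M k₀ h1)).trans
        (reaches_clean M k₀ w T)

/-- The version for a start label. -/
theorem mem_eval_label_iff (l : Λ) (v : σ) (S : K → List Γ) (fin : SCfg (St K Γ Λ σ) K Γ) :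
    fin ∈ eval (SM.step (prog M k₀)) ⟨some (some (M l), v), S⟩ ↔
      ∃ d ∈ eval (TM2.step M) ⟨some l, v, S⟩, fin = ⟨none, Function.update d.stk k₀ []⟩ := by
  have h1 : Reaches (TM2.step M) ⟨some l, v, S⟩ (TM2.stepAux (M l) v S) :=
    Relation.ReflTransGen.single rfl
  rw [mem_eval_iff, reaches_eval h1]

/-- the finite set of states used by the simulation -/
def supp (S : Finset Λ) : Set (St K Γ Λ σ) :=
  {x | ∀ y v, x = some (y, v) → y ∈ TM2.stmts M S}

theorem none_mem_supp (S : Finset Λ) : (none : St K Γ Λ σ) ∈ supp M S := by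
  intro y v h; cases h

theorem some_mem_supp {S : Finset Λ} {y : Option (TM2.Stmt (fun _ : K => Γ) Λ σ)} {v : σ} :
    (some (y, v) : St K Γ Λ σ) ∈ supp M S ↔ y ∈ TM2.stmts M S := by
  constructor
  · intro h; exact h y v rfl
  · intro h y' v' e
    simp only [Option.some.injEq, Prod.mk.injEq] at e
    rw [← e.1]; exact h

theorem supp_finite [Finite σ] (S : Finset Λ) : (supp M S : Set (St K Γ Λ σ)).Finite := by
  have h1 : ((↑(TM2.stmts M S) : Set (Option (TM2.Stmt (fun _ : K => Γ) Λ σ))) ×ˢ
      (Set.univ : Set σ)).Finite := (Finset.finite_toSet _).prod Set.finite_univ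
  refine ((h1.image some).insert none).subset ?_
  rintro (_ | ⟨y, v⟩) hx
  · exact Set.mem_insert _ _
  · refine Set.mem_insert_of_mem _ ⟨(y, v), ⟨?_, Set.mem_univ _⟩, rfl⟩
    exact (some_mem_supp M).1 hx

theorem none_mem_stmts (S : Finset Λ) :
    (none : Option (TM2.Stmt (fun _ : K => Γ) Λ σ)) ∈ TM2.stmts M S := by
  simp [TM2.stmts]

theorem label_mem_stmts {S : Finset Λ} {l : Λ} (hl : l ∈ S) : some (M l) ∈ TM2.stmts M S := by
  simp only [TM2.stmts, Finset.mem_insertNone, Finset.mem_biUnion, Option.mem_def,
    Option.some.injEq, forall_eq']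
  exact ⟨l, hl, TM2.stmts₁_self⟩

theorem prog_closed [Inhabited Λ] {S : Finset Λ} (ss : TM2.Supports M S) :
    ∀ q ∈ supp M S, (prog M k₀ q).Closed (supp M S) := by
  rintro (_ | ⟨_ | q, v⟩) hq
  · trivial
  · intro o
    show (if o.isSome then some (none, v) else none) ∈ supp M S
    split_ifs
    · exact hq
    · exact none_mem_supp M S
  · have hq' := (some_mem_supp M).1 hq
    have sub : ∀ q', q' ∈ TM2.stmts₁ q → ∀ v', (some (some q', v') : St K Γ Λ σ) ∈ supp M S :=
      fun q' h v' => (some_mem_supp M).2 (TM2.stmts_trans h hq')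
    cases q with
    | push k f q => exact sub q (by simp [TM2.stmts₁, TM2.stmts₁_self]) _
    | peek k f q => exact fun o => sub q (by simp [TM2.stmts₁, TM2.stmts₁_self]) _
    | pop k f q => exact fun o => sub q (by simp [TM2.stmts₁, TM2.stmts₁_self]) _
    | load a q => exact sub q (by simp [TM2.stmts₁, TM2.stmts₁_self]) _
    | branch f q₁ q₂ =>
      refine sub _ ?_ _
      cases f v <;> simp [TM2.stmts₁, TM2.stmts₁_self]
    | goto f =>
      have := TM2.stmts_supportsStmt ss hq'
      exact (some_mem_supp M).2 (label_mem_stmts M (this v))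
    | halt => exact (some_mem_supp M).2 (none_mem_stmts M S)

end TM2SM
end Claimed.Agent.R152.MC
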