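/-
Row 152, module MC (machine chain), part 6: the affine machine of a `ToPartrec.Code`.

Registers `Reg K'` (state, fuel, four stacks).  Run instructions `run c`, input letters `inp c`
(`c`: push fuel in state `0`; `e`: switch `0 → 1`, pushes the numeral `1`; `a`, `f`: push two bits
in state `1`).  Start vector `ξ c q`, accept vector `ω₀ c`.
-/
import Claimed.Agent.R152.MC.SMAff
import Claimed.Agent.R152.MC.TM2SM
import Claimed.Agent.R152.MC.Code

set_option autoImplicit false

open Turing Turing.PartrecToTM2 StateTransition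

namespace Claimed.Agent.R152.MC
namespace Chain

/-- all states of the micro-step machine -/
abbrev Q₀ := TM2SM.St K' Γ' Λ' (Option Γ')

/-- Mathlib's `tr` with its type unfolded -/
def tr' : Λ' → TM2.Stmt (fun _ : K' => Γ') Λ' (Option Γ') := tr

/-- the (infinite) program -/
def P₀ : Q₀ → Instr Q₀ K' Γ' := TM2SM.prog tr' K'.main

variable (c : ToPartrec.Code)

/-- the finite set of states used for the code `c` -/
def Sset : Set Q₀ := TM2SM.supp tr' (codeSupp c Cont'.halt)

theorem closed : ∀ q ∈ Sset c, (P₀ q).Closed (Sset c) :=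
  @TM2SM.prog_closed K' _ Γ' Λ' (Option Γ') tr' K'.main ⟨trNormal c Cont'.halt⟩ _
    (tr_supports c Cont'.halt)

/-- the states -/
abbrev Q := ↥(Sset c)

instance instFiniteQ : Finite (Q c) := (TM2SM.supp_finite tr' (codeSupp c Cont'.halt)).to_subtype

/-- the program -/
def P : Q c → Instr (Q c) K' Γ' := SM.restrict P₀ (Sset c) (closed c)

/-- initial state -/
def qi : Q c :=
  ⟨some (some (tr' (trNormal c Cont'.halt)), none),
    (TM2SM.some_mem_supp tr').2 (TM2SM.label_mem_stmts tr' (tr_supports c Cont'.halt).1)⟩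

/-- final state -/
def qf : Q c := ⟨none, TM2SM.none_mem_supp tr' _⟩

theorem P_qf : P c (qf c) = .halt := rfl

/-- the stack machine accepts iff the code halts -/
theorem sm_reaches_iff (v : List ℕ) :
    SM.Reaches (P c) ⟨qi c, K'.elim (trList v) [] [] []⟩ ⟨qf c, fun _ => []⟩ ↔ (c.eval v).Dom := by
  rw [P, SM.reaches_restrict]
  have h0 : SM.Reaches P₀ (SM.SCfg.val ⟨qi c, K'.elim (trList v) [] [] []⟩)
      (SM.SCfg.val ⟨qf c, fun _ => []⟩) ↔
      (⟨none, fun _ => []⟩ : SCfg Q₀ K' Γ') ∈ eval (SM.step P₀)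
        ⟨some (some (tr' (trNormal c Cont'.halt)), none), K'.elim (trList v) [] [] []⟩ := by
    rw [mem_eval]
    exact ⟨fun h => ⟨h, rfl⟩, fun h => h.1⟩
  rw [h0, P₀, TM2SM.mem_eval_label_iff]
  have h1 : eval (TM2.step tr') ⟨some (trNormal c Cont'.halt), none, K'.elim (trList v) [] [] []⟩
      = halt <$> c.eval v := tr_eval c v
  rw [h1]
  constructor
  · rintro ⟨d, hd, -⟩
    rw [Part.map_eq_map] at hd
    obtain ⟨v', hv', -⟩ := (Part.mem_map_iff _).1 hd
    exact Part.dom_iff_mem.2 ⟨v', hv'⟩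
  · intro h
    obtain ⟨v', hv'⟩ := Part.dom_iff_mem.1 h
    refine ⟨halt v', ?_, ?_⟩
    · rw [Part.map_eq_map]
      exact (Part.mem_map_iff _).2 ⟨v', hv', rfl⟩
    · simp only [halt, K'.elim_update_main, SCfg.mk.injEq, true_and]
      funext k
      cases k <;> rfl

end Chain
end Claimed.Agent.R152.MC
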