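/-
Row 152, module MC (machine chain), part 7: the input letters.

* `c` : state `0 → 0`, pushes one unit of fuel;
* `e` : state `0 → 1`, tests that the two top symbols of `main` are `bit1, cons`;
* `a` : state `1 → 1`, pushes `bit0, bit0` on `main`  (`n ↦ 4 n`);
* `f` : state `1 → 1`, pushes `bit0, bit1` on `main` (top symbol `bit0`)  (`n ↦ 4 n + 2`).
-/
import Claimed.Agent.R152.MC.Chain

set_option autoImplicit false

open Turing Turing.PartrecToTM2

namespace Claimed.Agent.R152.MC

/-- the input letters -/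
inductive InL
  | c | e | a | f
  deriving DecidableEq

instance instFintypeInL : Fintype InL := ⟨{.c, .e, .a, .f}, by intro x; cases x <;> simp⟩

namespace Input
variable {Q : Type*} (C : Coding Q Γ')

/-- the base of the input letters `a`, `f` -/
def M : ℤ := C.m * C.m
/-- the digit of `a` -/
def dA : ℤ := C.m * C.dig Γ'.bit0 + C.dig Γ'.bit0
/-- the digit of `f` -/
def dF : ℤ := C.m * C.dig Γ'.bit1 + C.dig Γ'.bit0
/-- the residue tested by `e` -/
def dE : ℤ := C.m * C.dig Γ'.cons + C.dig Γ'.bit1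

/-- an input instruction -/
def mkIn (s s' : ℤ) (fu : Op) (o : Op) : AInstr (Reg K')
  | .st => Op.exact s s'
  | .fuel => fu
  | .stk k => SMAff.one K'.main o k

/-- the input instructions -/
def inp : InL → AInstr (Reg K')
  | .c => mkIn 0 0 (Op.push C.m 1) Op.idn
  | .e => mkIn 0 1 Op.idn (Op.test (M C) (dE C))
  | .a => mkIn 1 1 Op.idn (Op.push (M C) (dA C))
  | .f => mkIn 1 1 Op.idn (Op.push (M C) (dF C))

theorem rel_mkIn {s s' : ℤ} {fu o : Op} {α β : Reg K' → ℤ} :
    (mkIn s s' fu o).Rel α β ↔ α .st = s ∧ β .st = s' ∧ fu.Rel (α .fuel) (β .fuel) ∧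
      o.Rel (α (.stk K'.main)) (β (.stk K'.main)) ∧
      ∀ k, k ≠ K'.main → β (.stk k) = α (.stk k) := by
  constructor
  · intro h
    have h1 := h .st
    simp only [mkIn, Op.rel_exact] at h1
    have h3 := (SMAff.rel_one (x := fun k => α (.stk k)) (y := fun k => β (.stk k))).1
      fun k => h (.stk k)
    exact ⟨h1.1, h1.2, h .fuel, h3.1, h3.2⟩
  · rintro ⟨h1, h2, h3, h4, h5⟩ r
    cases r with
    | st => simp [mkIn, h1, h2]
    | fuel => exact h3
    | stk k =>
      exact (SMAff.rel_one (x := fun k => α (.stk k)) (y := fun k => β (.stk k))).2 ⟨h4, h5⟩ k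

theorem M_ne_zero : M C ≠ 0 := by
  have := C.hm
  unfold M
  positivity

theorem valid_inp (i : InL) : (inp C i).Valid := by
  have hm : C.m ≠ 0 := by have := C.hm; omega
  have key : ∀ (s s' : ℤ) (fu o : Op), fu.Valid → o.Valid → (mkIn s s' fu o).Valid := by
    intro s s' fu o h1 h2 r
    cases r with
    | st => exact Op.valid_exact _ _
    | fuel => exact h1
    | stk k => exact SMAff.valid_one h2 k
  cases i with
  | c => exact key _ _ _ _ (Op.valid_push hm _) Op.valid_idn
  | e => exact key _ _ _ _ Op.valid_idn (Op.valid_test _ _)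
  | a => exact key _ _ _ _ Op.valid_idn (Op.valid_push (M_ne_zero C) _)
  | f => exact key _ _ _ _ Op.valid_idn (Op.valid_push (M_ne_zero C) _)

/-- uniqueness of two-digit decompositions -/
theorem two_digit {s₁ s₂ t₁ t₂ : Γ'} {u u' : ℤ}
    (h : M C * u + (C.m * C.dig s₂ + C.dig s₁) = M C * u' + (C.m * C.dig t₂ + C.dig t₁)) :
    u = u' ∧ s₁ = t₁ ∧ s₂ = t₂ := by
  have h1 : C.m * (C.m * u + C.dig s₂) + C.dig s₁ = C.m * (C.m * u' + C.dig t₂) + C.dig t₁ := by
    unfold M at h; linarith
  obtain ⟨h2, h3⟩ := C.digit_unique (C.dig_pos _).le (C.dig_pos _).le (C.dig_lt _) (C.dig_lt _) h1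
  obtain ⟨h4, h5⟩ := C.digit_unique (C.dig_pos _).le (C.dig_pos _).le (C.dig_lt _) (C.dig_lt _) h2
  exact ⟨h4, C.dig_inj h3, C.dig_inj h5⟩

/-- the state after an input letter -/
def tgt : InL → ℤ
  | .c => 0
  | _ => 1

/-- the two top symbols of `main` after an input letter `≠ c` -/
def top2 : InL → Γ' × Γ'
  | .c => (Γ'.consₗ, Γ'.consₗ)
  | .e => (Γ'.bit1, Γ'.cons)
  | .a => (Γ'.bit0, Γ'.bit0)
  | .f => (Γ'.bit0, Γ'.bit1)

theorem inp_tgt {i : InL} {α β : Reg K' → ℤ} (h : (inp C i).Rel α β) : β .st = tgt i := by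
  cases i <;> exact (rel_mkIn.1 h).2.1

theorem inp_top2 {i : InL} (hi : i ≠ .c) {α β : Reg K' → ℤ} (h : (inp C i).Rel α β) :
    ∃ u, β (.stk K'.main) = M C * u + (C.m * C.dig (top2 i).2 + C.dig (top2 i).1) := by
  cases i with
  | c => exact absurd rfl hi
  | e =>
    have := (rel_mkIn.1 h).2.2.2.1
    simp only [Op.rel_test] at this
    obtain ⟨h1, u, hu⟩ := this
    exact ⟨u, by rw [h1, hu]; rfl⟩
  | a =>
    have := (rel_mkIn.1 h).2.2.2.1
    simp only [Op.rel_push] at this
    exact ⟨_, this⟩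
  | f =>
    have := (rel_mkIn.1 h).2.2.2.1
    simp only [Op.rel_push] at this
    exact ⟨_, this⟩

/-- (T1) the images of the input letters are pairwise disjoint, on all of `ℤ^R` -/
theorem inp_images_disjoint {i i' : InL} {α α' β : Reg K' → ℤ} (h : (inp C i).Rel α β)
    (h' : (inp C i').Rel α' β) : i = i' := by
  have h1 := (inp_tgt C h).symm.trans (inp_tgt C h')
  by_cases hi : i = .c
  · subst hi
    cases i' <;> simp [tgt] at h1 ⊢
  by_cases hi' : i' = .c
  · subst hi'
    cases i <;> simp [tgt] at h1 ⊢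
  obtain ⟨u, hu⟩ := inp_top2 C hi h
  obtain ⟨u', hu'⟩ := inp_top2 C hi' h'
  obtain ⟨-, h2, h3⟩ := two_digit C (hu.symm.trans hu')
  cases i <;> cases i' <;> simp [top2] at h2 h3 ⊢

/-- the stacks after the raw input word `w` (head = last letter), tag `q` -/
def T (q : ℕ) (w : List Bool) : K' → List Γ' := K'.elim (trList [num w, q]) [] [] []

/-- the vector in the input state `0` with `s` units of fuel -/
def preCfg (q s : ℕ) : Reg K' → ℤ
  | .st => 0
  | .fuel => C.fuelVal s
  | .stk k => C.enc (T q [] k)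

/-- the start vector with tag `q` -/
def ξ (q : ℕ) : Reg K' → ℤ := preCfg C q 0

/-- (T2) the start vector lies in no image of an input letter -/
theorem ξ_not_image (q : ℕ) (i : InL) (α : Reg K' → ℤ) : ¬ (inp C i).Rel α (ξ C q) := by
  intro h
  have h1 := inp_tgt C h
  cases i with
  | c =>
    have := (rel_mkIn.1 h).2.2.1
    simp only [Op.rel_push] at this
    exact C.fuel_ne_zero this
  | e => simp [tgt, ξ, preCfg] at h1
  | a => simp [tgt, ξ, preCfg] at h1
  | f => simp [tgt, ξ, preCfg] at h1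

theorem rel_c (q s : ℕ) : (inp C .c).Rel (preCfg C q s) (preCfg C q (s + 1)) :=
  rel_mkIn.2 ⟨rfl, rfl, by simp [preCfg], by simp [preCfg], fun _ _ => rfl⟩

theorem rel_e (q s : ℕ) : (inp C .e).Rel (preCfg C q s) (SMAff.inCfg C (T q []) s) := by
  refine rel_mkIn.2 ⟨rfl, rfl, by simp [preCfg, SMAff.inCfg], ?_, fun _ _ => rfl⟩
  simp only [Op.rel_test]
  refine ⟨rfl, C.enc (trList [q]), ?_⟩
  simp only [preCfg, T, K'.elim, trList, trNat_num_nil, List.cons_append, List.nil_append,
    Coding.enc_cons, M, dE]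
  ring

/-- the letter writing the bit `b` -/
def bit : Bool → InL
  | false => .a
  | true => .f

theorem rel_bit (q s : ℕ) (b : Bool) (w : List Bool) :
    (inp C (bit b)).Rel (SMAff.inCfg C (T q w) s) (SMAff.inCfg C (T q (b :: w)) s) := by
  have key : C.enc (T q (b :: w) K'.main) = M C * C.enc (T q w K'.main) +
      (C.m * C.dig (if b then Γ'.bit1 else Γ'.bit0) + C.dig Γ'.bit0) := by
    simp only [T, K'.elim, trList, trNat_num_cons, List.cons_append, Coding.enc_cons, M]
    ring
  cases b with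
  | false =>
    exact rel_mkIn.2 ⟨rfl, rfl, by simp [SMAff.inCfg], by simpa [SMAff.inCfg, dA] using key,
      fun k hk => by cases k <;> first | exact absurd rfl hk | rfl⟩
  | true =>
    exact rel_mkIn.2 ⟨rfl, rfl, by simp [SMAff.inCfg], by simpa [SMAff.inCfg, dF] using key,
      fun k hk => by cases k <;> first | exact absurd rfl hk | rfl⟩

end Input
end Claimed.Agent.R152.MC
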