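/-
Row 152, module MC (machine chain), part 8: from a finite family of instructions `ι → AInstr R`
to helper22's `HW.Aff` (registers `Fin k`, letters `Fin nL`, moduli in `ℕ`).
-/
import Claimed.Agent.R152.MC.Aff
import Claimed.Agent.R152.HW.Aff

set_option autoImplicit false

namespace Claimed.Agent.R152.MC

open Claimed.Agent.R152.HW

/-- nonnegative moduli -/
def Op.NN (o : Op) : Prop := 0 ≤ o.μ ∧ 0 ≤ o.μ'

theorem Op.nn_idn : Op.idn.NN := by simp [Op.NN, Op.idn]
theorem Op.nn_exact (a b : ℤ) : (Op.exact a b).NN := by simp [Op.NN, Op.exact]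
theorem Op.nn_push {m : ℤ} (hm : 0 ≤ m) (d : ℤ) : (Op.push m d).NN := by simp [Op.NN, Op.push, hm]
theorem Op.nn_pop {m : ℤ} (hm : 0 ≤ m) (d : ℤ) : (Op.pop m d).NN := by simp [Op.NN, Op.pop, hm]
theorem Op.nn_test {m : ℤ} (hm : 0 ≤ m) (d : ℤ) : (Op.test m d).NN := by simp [Op.NN, Op.test, hm]

theorem step_pointwise (𝔐 : Aff) (l : Fin 𝔐.nL) (α β : 𝔐.Vec) :
    𝔐.Step l α β ↔ ∃ u : Fin 𝔐.k → ℤ, ∀ i, α i = 𝔐.a l i + (𝔐.mu l i : ℤ) * u i ∧
      β i = 𝔐.b l i + (𝔐.mu' l i : ℤ) * u i := by
  constructor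
  · rintro ⟨u, h1, h2⟩
    exact ⟨u, fun i => ⟨congrFun h1 i, congrFun h2 i⟩⟩
  · rintro ⟨u, h⟩
    exact ⟨u, funext fun i => (h i).1, funext fun i => (h i).2⟩

section
variable {R ι : Type*} {k nL : ℕ} (eR : R ≃ Fin k) (eι : ι ≃ Fin nL) (ins : ι → AInstr R)
  (hv : ∀ i r, (ins i r).Valid) (hn : ∀ i r, (ins i r).NN)

/-- the affine machine of a family of instructions -/
@[reducible] def toAff : Aff where
  k := k
  nL := nL
  mu := fun l i => (ins (eι.symm l) (eR.symm i)).μ.toNat
  mu' := fun l i => (ins (eι.symm l) (eR.symm i)).μ'.toNat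
  a := fun l i => (ins (eι.symm l) (eR.symm i)).a
  b := fun l i => (ins (eι.symm l) (eR.symm i)).b
  mu_zero := by
    intro l i
    have h1 := hv (eι.symm l) (eR.symm i)
    have h2 := hn (eι.symm l) (eR.symm i)
    unfold Op.Valid at h1
    unfold Op.NN at h2
    constructor
    · intro h
      have : (ins (eι.symm l) (eR.symm i)).μ = 0 := by omega
      have := h1.1 this
      omega
    · intro h
      have : (ins (eι.symm l) (eR.symm i)).μ' = 0 := by omega
      have := h1.2 this
      omega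

/-- transport of vectors -/
def tv (α : R → ℤ) : (toAff eR eι ins hv hn).Vec := fun i => α (eR.symm i)

theorem tv_injective : Function.Injective (tv eR eι ins hv hn) := by
  intro α β h
  funext r
  have := congrFun h (eR r)
  simpa [tv] using this

theorem tv_surjective : Function.Surjective (tv eR eι ins hv hn) := by
  intro v
  refine ⟨fun r => v (eR r), ?_⟩
  funext i
  show v (eR (eR.symm i)) = v i
  rw [Equiv.apply_symm_apply]

@[simp] theorem tv_apply (α : R → ℤ) (r : R) : tv eR eι ins hv hn α (eR r) = α r := by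
  simp [tv]

/-- the steps of the affine machine are the graphs of the instructions -/
theorem step_iff (i : ι) (α β : R → ℤ) :
    (toAff eR eι ins hv hn).Step (eι i) (tv eR eι ins hv hn α) (tv eR eι ins hv hn β) ↔
      (ins i).Rel α β := by
  rw [AInstr.rel_iff_exists, step_pointwise]
  constructor
  · rintro ⟨u, h⟩
    refine ⟨fun r => u (eR r), fun r => ?_, fun r => ?_⟩
    · have := (h (eR r)).1
      change α (eR.symm (eR r)) = (ins (eι.symm (eι i)) (eR.symm (eR r))).a +
        (((ins (eι.symm (eι i)) (eR.symm (eR r))).μ.toNat : ℕ) : ℤ) * u (eR r) at this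
      simp only [Equiv.symm_apply_apply] at this
      rw [this, Int.toNat_of_nonneg (hn i r).1]
    · have := (h (eR r)).2
      change β (eR.symm (eR r)) = (ins (eι.symm (eι i)) (eR.symm (eR r))).b +
        (((ins (eι.symm (eι i)) (eR.symm (eR r))).μ'.toNat : ℕ) : ℤ) * u (eR r) at this
      simp only [Equiv.symm_apply_apply] at this
      rw [this, Int.toNat_of_nonneg (hn i r).2]
  · rintro ⟨u, h1, h2⟩
    refine ⟨fun j => u (eR.symm j), fun j => ⟨?_, ?_⟩⟩
    · show α (eR.symm j) = (ins (eι.symm (eι i)) (eR.symm j)).a +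
        (((ins (eι.symm (eι i)) (eR.symm j)).μ.toNat : ℕ) : ℤ) * u (eR.symm j)
      rw [Equiv.symm_apply_apply, h1, Int.toNat_of_nonneg (hn i _).1]
    · show β (eR.symm j) = (ins (eι.symm (eι i)) (eR.symm j)).b +
        (((ins (eι.symm (eι i)) (eR.symm j)).μ'.toNat : ℕ) : ℤ) * u (eR.symm j)
      rw [Equiv.symm_apply_apply, h2, Int.toNat_of_nonneg (hn i _).2]

end

end Claimed.Agent.R152.MC
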