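/-
Row 152, module MC (machine chain), part 9: the affine machine `𝔐 c : HW.Aff` and its input
structure `I c : HW.Inp (𝔐 c)` for a code `c`.
-/
import Claimed.Agent.R152.MC.Input
import Claimed.Agent.R152.MC.ToAff
import Claimed.Agent.R152.HW.Hs

set_option autoImplicit false
set_option linter.unusedSectionVars false

open Turing Turing.PartrecToTM2

namespace Claimed.Agent.R152.MC

open Claimed.Agent.R152.HW

instance instFintypeK' : Fintype K' := ⟨{.main, .rev, .aux, .stack}, by intro x; cases x <;> simp⟩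

instance instFiniteReg {K : Type*} [Finite K] : Finite (Reg K) := by
  let f : Reg K → Option (Option K) := fun r =>
    match r with
    | .st => none
    | .fuel => some none
    | .stk k => some (some k)
  refine Finite.of_injective f ?_
  intro a b h
  cases a <;> cases b <;> simp_all [f]

instance instFiniteRIdx {Q K Γ : Type*} [Finite Q] [Finite Γ] (P : Q → Instr Q K Γ) :
    Finite (SMAff.RIdx P) := by
  let f : SMAff.RIdx P → Option (Option (Q × Option Γ)) := fun r =>
    match r with
    | .go => none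
    | .burn => some none
    | .ins q o _ => some (some (q, o))
  refine Finite.of_injective f ?_
  intro a b h
  cases a <;> cases b <;> simp_all [f]

namespace SMAff
variable {Q K Γ : Type*} [DecidableEq K] (C : Coding Q Γ)

theorem nn_mk {c c' : ℤ} {f : K → Op} (hf : ∀ k, (f k).NN) : ∀ r, (mk C c c' f r).NN := by
  have hm : 0 ≤ C.m := by have := C.hm; omega
  intro r
  cases r with
  | st => exact Op.nn_exact _ _
  | fuel => exact Op.nn_pop hm _
  | stk k => exact hf k

theorem nn_one {k : K} {o : Op} (ho : o.NN) : ∀ k', (one k o k').NN := by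
  intro k'
  by_cases hk : k' = k
  · subst hk; simpa [one] using ho
  · simpa [one, hk] using Op.nn_idn

theorem nn_insI (c : ℤ) (I : Instr Q K Γ) (o : Option Γ) : ∀ r, (insI C c I o r).NN := by
  have hm : 0 ≤ C.m := by have := C.hm; omega
  cases I with
  | push k s q => exact nn_mk C (nn_one (Op.nn_push hm _))
  | pop k f =>
    refine nn_mk C (nn_one ?_)
    cases o with
    | none => exact Op.nn_exact _ _
    | some s => exact Op.nn_pop hm _
  | peek k f =>
    refine nn_mk C (nn_one ?_)
    cases o with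
    | none => exact Op.nn_exact _ _
    | some s => exact Op.nn_test hm _
  | nop q => exact nn_mk C fun _ => Op.nn_idn
  | halt => exact nn_mk C fun _ => Op.nn_idn

theorem nn_run (P : Q → Instr Q K Γ) (qi qf : Q) (i : RIdx P) : ∀ r, (run C P qi qf i r).NN := by
  cases i with
  | go => exact nn_mk C fun _ => Op.nn_idn
  | burn => exact nn_mk C fun _ => Op.nn_idn
  | ins q o h => exact nn_insI C _ _ _

end SMAff

namespace Input
variable {Q : Type*} (C : Coding Q Γ')

theorem nn_inp (i : InL) : ∀ r, (inp C i r).NN := by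
  have hm : 0 ≤ C.m := by have := C.hm; omega
  have hM : 0 ≤ M C := mul_nonneg hm hm
  have key : ∀ (s s' : ℤ) (fu o : Op), fu.NN → o.NN → ∀ r, (mkIn s s' fu o r).NN := by
    intro s s' fu o h1 h2 r
    cases r with
    | st => exact Op.nn_exact _ _
    | fuel => exact h1
    | stk k => exact SMAff.nn_one h2 k
  cases i with
  | c => exact key _ _ _ _ (Op.nn_push hm _) Op.nn_idn
  | e => exact key _ _ _ _ Op.nn_idn (Op.nn_test hM _)
  | a => exact key _ _ _ _ Op.nn_idn (Op.nn_push hM _)
  | f => exact key _ _ _ _ Op.nn_idn (Op.nn_push hM _)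

end Input

namespace Main
variable (c : ToPartrec.Code)

/-- a coding of the states and symbols -/
noncomputable def C : Coding (Chain.Q c) Γ' := (Coding.exists_coding _ _).some

/-- all letters: run instructions and input letters -/
abbrev Lt := SMAff.RIdx (Chain.P c) ⊕ InL

/-- the run instructions -/
noncomputable abbrev runI : SMAff.RIdx (Chain.P c) → AInstr (Reg K') :=
  SMAff.run (C c) (Chain.P c) (Chain.qi c) (Chain.qf c)

/-- all instructions -/
noncomputable def ins : Lt c → AInstr (Reg K') := Sum.elim (runI c) (Input.inp (C c))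

theorem hv (i : Lt c) (r : Reg K') : (ins c i r).Valid := by
  cases i with
  | inl i => exact SMAff.valid_run _ _ _ _ i r
  | inr i => exact Input.valid_inp _ i r

theorem hn (i : Lt c) (r : Reg K') : (ins c i r).NN := by
  cases i with
  | inl i => exact SMAff.nn_run _ _ _ _ i r
  | inr i => exact Input.nn_inp _ i r

/-- numbering of the registers -/
noncomputable def eR : Reg K' ≃ Fin (Nat.card (Reg K')) := Finite.equivFin _

/-- numbering of the letters -/
noncomputable def eL : Lt c ≃ Fin (Nat.card (Lt c)) := Finite.equivFin _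

/-- THE AFFINE MACHINE of the code `c` -/
@[reducible] noncomputable def 𝔐 : Aff := toAff eR (eL c) (ins c) (hv c) (hn c)

/-- transport of vectors -/
noncomputable def tw (α : Reg K' → ℤ) : (𝔐 c).Vec := tv eR (eL c) (ins c) (hv c) (hn c) α

theorem tw_injective : Function.Injective (tw c) := tv_injective _ _ _ _ _
theorem tw_surjective : Function.Surjective (tw c) := tv_surjective _ _ _ _ _

theorem step_iff (i : Lt c) (α β : Reg K' → ℤ) :
    (𝔐 c).Step (eL c i) (tw c α) (tw c β) ↔ (ins c i).Rel α β :=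
  MC.step_iff _ _ _ _ _ i α β

/-- the accepting vector -/
noncomputable def ω₀ : Reg K' → ℤ := SMAff.encCfg (C c) ⟨Chain.qf c, fun _ => []⟩ 0

theorem step_run_iff (i : SMAff.RIdx (Chain.P c)) (α β : Reg K' → ℤ) :
    (𝔐 c).Step (eL c (.inl i)) (tw c α) (tw c β) ↔ (runI c i).Rel α β :=
  step_iff c (.inl i) α β

theorem step_inp_iff (i : InL) (α β : Reg K' → ℤ) :
    (𝔐 c).Step (eL c (.inr i)) (tw c α) (tw c β) ↔ (Input.inp (C c) i).Rel α β :=
  step_iff c (.inr i) α β

@[simp] theorem tw_apply (α : Reg K' → ℤ) (r : Reg K') : tw c α (eR r) = α r :=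
  tv_apply _ _ _ _ _ α r

/-- the letter of an input letter -/
noncomputable def lin (i : InL) : Fin (𝔐 c).nL := eL c (.inr i)

theorem lin_injective : Function.Injective (lin c) := fun _ _ h =>
  Sum.inr_injective ((eL c).injective h)

/-- the other input letters: `c`, `e` -/
noncomputable def oth : Fin 2 → Fin (𝔐 c).nL := ![lin c .c, lin c .e]

theorem mem_jin {l : Fin (𝔐 c).nL}
    (h : l ∈ ({lin c .a, lin c .f} ∪ Set.range (oth c) : Set (Fin (𝔐 c).nL))) :
    ∃ i, l = lin c i := by
  rcases h with (h | h) | ⟨j, rfl⟩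
  · exact ⟨_, h⟩
  · exact ⟨_, h⟩
  · fin_cases j
    · exact ⟨.c, rfl⟩
    · exact ⟨.e, rfl⟩

theorem M_ge : 9 ≤ Input.M (C c) := by
  have := (C c).hm
  unfold Input.M
  nlinarith

theorem dig2_pos (s t : Γ') : 0 < (C c).m * (C c).dig s + (C c).dig t := by
  have := (C c).hm
  have := (C c).dig_pos s
  have := (C c).dig_pos t
  positivity

/-- no input letter decreases a nonnegative `main` -/
theorem inp_grow {i : InL} {α β : Reg K' → ℤ} (h : (Input.inp (C c) i).Rel α β)
    (h0 : 0 ≤ α (.stk K'.main)) : α (.stk K'.main) ≤ β (.stk K'.main) := by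
  have hM := M_ge c
  cases i with
  | c =>
    have := (Input.rel_mkIn.1 h).2.2.2.1
    simp only [Op.rel_idn] at this
    exact this.ge
  | e =>
    have := (Input.rel_mkIn.1 h).2.2.2.1
    simp only [Op.rel_test] at this
    exact this.1.ge
  | a =>
    have := (Input.rel_mkIn.1 h).2.2.2.1
    simp only [Op.rel_push] at this
    have h2 : 0 < Input.dA (C c) := dig2_pos c _ _
    nlinarith
  | f =>
    have := (Input.rel_mkIn.1 h).2.2.2.1
    simp only [Op.rel_push] at this
    have h2 : 0 < Input.dF (C c) := dig2_pos c _ _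
    nlinarith

/-- THE INPUT STRUCTURE of the machine -/
noncomputable def I : Inp (𝔐 c) where
  la := lin c .a
  lf := lin c .f
  nO := 2
  o := oth c
  la_ne_lf := fun h => by cases lin_injective c h
  o_inj := by
    intro i j h
    fin_cases i <;> fin_cases j <;> first | rfl | (exfalso; cases lin_injective c h)
  o_ne_la := by
    intro j h
    fin_cases j <;> cases lin_injective c h
  o_ne_lf := by
    intro j h
    fin_cases j <;> cases lin_injective c h
  JM := Set.range fun i => eL c (.inl i)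
  la_notMem := by
    rintro ⟨i, hi⟩
    cases (eL c).injective hi
  lf_notMem := by
    rintro ⟨i, hi⟩
    cases (eL c).injective hi
  o_notMem := by
    rintro j ⟨i, hi⟩
    fin_cases j <;> cases (eL c).injective hi
  z := tw c (ω₀ c)
  det := by
    rintro _ ⟨i, rfl⟩ _ ⟨i', rfl⟩ α β β' h h'
    obtain ⟨α, rfl⟩ := tw_surjective c α
    obtain ⟨β, rfl⟩ := tw_surjective c β
    obtain ⟨β', rfl⟩ := tw_surjective c β'
    rw [SMAff.det_run (C c) (Chain.P c) (Chain.qi c) (Chain.qf c) (Chain.P_qf c) i i' α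
      ⟨β, (step_run_iff c i α β).1 h⟩ ⟨β', (step_run_iff c i' α β').1 h'⟩]
  term := by
    rintro _ ⟨i, rfl⟩ β h
    obtain ⟨β, rfl⟩ := tw_surjective c β
    exact SMAff.terminal_of_fuel_zero (C c) (Chain.P c) (Chain.qi c) (Chain.qf c)
      (α := ω₀ c) rfl β ⟨i, (step_run_iff c i _ β).1 h⟩
  img := by
    intro l hl l' hl' α α' β h h'
    obtain ⟨i, rfl⟩ := mem_jin c hl
    obtain ⟨i', rfl⟩ := mem_jin c hl'
    obtain ⟨α, rfl⟩ := tw_surjective c α
    obtain ⟨α', rfl⟩ := tw_surjective c α'
    obtain ⟨β, rfl⟩ := tw_surjective c β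
    rw [Input.inp_images_disjoint (C c) ((step_inp_iff c i α β).1 h)
      ((step_inp_iff c i' α' β).1 h')]
  r := eR (.stk K'.main)
  grow_f := by
    intro α β h h0
    obtain ⟨α, rfl⟩ := tw_surjective c α
    obtain ⟨β, rfl⟩ := tw_surjective c β
    rw [tw_apply] at h0 ⊢
    rw [tw_apply]
    have := (Input.rel_mkIn.1 ((step_inp_iff c .f α β).1 h)).2.2.2.1
    simp only [Op.rel_push] at this
    have h2 : 0 < Input.dF (C c) := dig2_pos c _ _
    have hM := M_ge c
    nlinarith
  grow := by
    intro l hl α β h h0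
    obtain ⟨i, rfl⟩ := mem_jin c hl
    obtain ⟨α, rfl⟩ := tw_surjective c α
    obtain ⟨β, rfl⟩ := tw_surjective c β
    rw [tw_apply] at h0 ⊢
    rw [tw_apply]
    exact inp_grow c ((step_inp_iff c i α β).1 h) h0

theorem enc_nonneg {Q Γ : Type*} (C : Coding Q Γ) (l : List Γ) : 0 ≤ C.enc l := by
  induction l with
  | nil => exact le_rfl
  | cons s l ih =>
    have := C.hm
    have := C.dig_pos s
    simp only [Coding.enc_cons]
    positivity

/-- the start vector with tag `q` -/
noncomputable def ξ (q : ℕ) : (𝔐 c).Vec := tw c (Input.ξ (C c) q)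

/-- the vector in the input state `0`: tag `q`, `s` units of fuel -/
noncomputable def pre (q s : ℕ) : (𝔐 c).Vec := tw c (Input.preCfg (C c) q s)

/-- the vector in the input state `1`: tag `q`, raw input `w`, `s` units of fuel -/
noncomputable def cfg (q : ℕ) (w : List Bool) (s : ℕ) : (𝔐 c).Vec :=
  tw c (SMAff.inCfg (C c) (Input.T q w) s)

theorem pre_zero (q : ℕ) : pre c q 0 = ξ c q := rfl

theorem mem_Jin {l : Fin (𝔐 c).nL} (h : l ∈ (I c).Jin) : ∃ i, l = lin c i := mem_jin c h

theorem lin_mem_Jin (i : InL) : lin c i ∈ (I c).Jin := by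
  cases i with
  | c => exact Or.inr ⟨(0 : Fin 2), rfl⟩
  | e => exact Or.inr ⟨(1 : Fin 2), rfl⟩
  | a => exact Or.inl (Or.inl rfl)
  | f => exact Or.inl (Or.inr rfl)

/-- (T2) -/
theorem start (q : ℕ) : (I c).Start (ξ c q) := by
  constructor
  · intro l hl α h
    obtain ⟨i, rfl⟩ := mem_Jin c hl
    obtain ⟨α, rfl⟩ := tw_surjective c α
    exact Input.ξ_not_image (C c) q i α ((step_inp_iff c i α _).1 h)
  · show 0 ≤ tw c (Input.ξ (C c) q) (eR (.stk K'.main))
    rw [tw_apply]
    exact enc_nonneg _ _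

theorem reach_iff (α : Reg K' → ℤ) : (I c).Reach (tw c α) ↔ AReaches (runI c) α (ω₀ c) := by
  constructor
  · intro h
    suffices H : ∀ a b : (𝔐 c).Vec,
        Relation.ReflTransGen (fun α β => ∃ l ∈ (I c).JM, (𝔐 c).Step l α β) a b →
        ∀ α β, a = tw c α → b = tw c β → AReaches (runI c) α β from H _ _ h _ _ rfl rfl
    intro a b hab
    induction hab with
    | refl =>
      intro α β h1 h2
      rw [tw_injective c (h1.symm.trans h2)]
      exact Relation.ReflTransGen.refl
    | tail _ hbc ih =>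
      intro α β h1 h2
      subst h2
      rename_i b' _
      obtain ⟨γ, rfl⟩ := tw_surjective c b'
      obtain ⟨_, ⟨i, rfl⟩, hs⟩ := hbc
      exact (ih α γ h1 rfl).tail ⟨i, (step_run_iff c i γ β).1 hs⟩
  · intro h
    induction h using Relation.ReflTransGen.head_induction_on with
    | refl => exact Relation.ReflTransGen.refl
    | head hbc _ ih =>
      obtain ⟨i, hi⟩ := hbc
      exact Relation.ReflTransGen.head ⟨_, ⟨i, rfl⟩, (step_run_iff c i _ _).2 hi⟩ ih

/-- ACCEPTANCE -/
theorem accept_iff (q : ℕ) (w : List Bool) :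
    (∃ s, (I c).Reach (cfg c q w s)) ↔ (c.eval [num w, q]).Dom := by
  rw [← Chain.sm_reaches_iff, ← SMAff.accepts_iff (C c) (Chain.P c) (Chain.qi c) (Chain.qf c)
    (Chain.P_qf c)]
  exact exists_congr fun s => reach_iff c _

/-- more fuel does not hurt -/
theorem accept_mono (q : ℕ) (w : List Bool) (h : (c.eval [num w, q]).Dom) :
    ∃ s₀, ∀ s, s₀ ≤ s → (I c).Reach (cfg c q w s) := by
  rw [← Chain.sm_reaches_iff] at h
  obtain ⟨n₀, hn⟩ := SMAff.reaches_mono (C c) (Chain.P c) (Chain.qi c) (Chain.qf c)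
    (d := ⟨Chain.qf c, fun _ => []⟩) rfl h
  refine ⟨n₀ + 1, fun s hs => ?_⟩
  obtain ⟨s, rfl⟩ : ∃ k, s = k + 1 := ⟨s - 1, by omega⟩
  exact (reach_iff c _).2 (Relation.ReflTransGen.head
    (SMAff.step_go (C c) (Chain.P c) (Chain.qi c) (Chain.qf c) _ s) (hn s (by omega)))

/-- the vectors in the input state `0` are not accepted -/
theorem not_reach_pre (q s : ℕ) : ¬ (I c).Reach (pre c q s) := by
  intro h
  have h1 := (reach_iff c _).1 h
  rcases Relation.ReflTransGen.cases_head h1 with h2 | ⟨β, ⟨i, hi⟩, -⟩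
  · have h3 : (0 : ℤ) = (C c).code (Chain.qf c) := congrFun h2 .st
    have := (C c).code_ge (Chain.qf c)
    omega
  · cases i with
    | go =>
      have h3 : (0 : ℤ) = 1 := ((SMAff.rel_mk (C c)).1 hi).1
      omega
    | burn =>
      have h3 : (0 : ℤ) = (C c).code (Chain.qf c) := ((SMAff.rel_mk (C c)).1 hi).1
      have := (C c).code_ge (Chain.qf c)
      omega
    | ins q' o ha =>
      have h3 : (0 : ℤ) = (C c).code q' := (SMAff.insI_src (C c) hi).1
      have := (C c).code_ge q'
      omega

/-- (M2) every vector runs into a terminal vector -/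
theorem exists_terminal (α : (𝔐 c).Vec) : ∃ β,
    Relation.ReflTransGen (fun α β => ∃ l ∈ (I c).JM, (𝔐 c).Step l α β) α β ∧
      ∀ l ∈ (I c).JM, ∀ γ, ¬ (𝔐 c).Step l β γ := by
  obtain ⟨α, rfl⟩ := tw_surjective c α
  induction hn : (α .fuel).natAbs using Nat.strong_induction_on generalizing α with
  | _ n ih =>
    by_cases h : ∃ l ∈ (I c).JM, ∃ γ, (𝔐 c).Step l (tw c α) γ
    · obtain ⟨_, ⟨i, rfl⟩, γ, hγ⟩ := h
      obtain ⟨γ, rfl⟩ := tw_surjective c γ
      have h1 := SMAff.step_fuel_lt (C c) (Chain.P c) (Chain.qi c) (Chain.qf c)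
        ⟨i, (step_run_iff c i α γ).1 hγ⟩
      rw [Int.abs_eq_natAbs, Int.abs_eq_natAbs] at h1
      obtain ⟨β, hβ, hβ'⟩ := ih (γ .fuel).natAbs (by omega) γ rfl
      exact ⟨β, Relation.ReflTransGen.head ⟨_, ⟨i, rfl⟩, hγ⟩ hβ, hβ'⟩
    · exact ⟨_, Relation.ReflTransGen.refl, fun l hl γ hγ => h ⟨l, hl, γ, hγ⟩⟩

end Main

end Claimed.Agent.R152.MC
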