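/-
Row 152, module MC (machine chain), part 10: input paths and accepted `U`-words.
-/
import Claimed.Agent.R152.MC.Main

set_option autoImplicit false
set_option linter.unusedSectionVars false

open Turing Turing.PartrecToTM2

namespace Claimed.Agent.R152.MC

open Claimed.Agent.R152.HW

namespace Input
variable {Q : Type*} (C : Coding Q Γ')

/-- the state before an input letter -/
def src : InL → ℤ
  | .c => 0
  | .e => 0
  | _ => 1

theorem inp_src {i : InL} {α β : Reg K' → ℤ} (h : (inp C i).Rel α β) : α .st = src i := by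
  cases i <;> exact (rel_mkIn.1 h).1

end Input

namespace Main
variable (c : ToPartrec.Code)

/-- the signed letter of an input letter -/
noncomputable def sl (i : InL) : (𝔐 c).SL := (lin c i, true)

/-- the fuel word -/
noncomputable def fuelW (s : ℕ) : List (𝔐 c).SL := List.replicate s (sl c .c)

/-- the input word: first `c^s`, then `e`, then the bits of `w` (the last element of `w` first) -/
noncomputable def inW (w : List Bool) (s : ℕ) : List (𝔐 c).SL :=
  w.map (fun b => sl c (Input.bit b)) ++ sl c .e :: fuelW c s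

theorem app_sl (i : InL) (α β : Reg K' → ℤ) :
    (𝔐 c).App (sl c i) (tw c α) (tw c β) ↔ (Input.inp (C c) i).Rel α β :=
  step_inp_iff c i α β

theorem path_fuelW (q s : ℕ) : (𝔐 c).Path (fuelW c s) (ξ c q) (pre c q s) := by
  induction s with
  | zero => exact rfl
  | succ s ih => exact ⟨_, ih, (app_sl c .c _ _).2 (Input.rel_c (C c) q s)⟩

theorem path_inW (q : ℕ) (w : List Bool) (s : ℕ) : (𝔐 c).Path (inW c w s) (ξ c q) (cfg c q w s) := by
  induction w with
  | nil => exact ⟨_, path_fuelW c q s, (app_sl c .e _ _).2 (Input.rel_e (C c) q s)⟩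
  | cons b w ih => exact ⟨_, ih, (app_sl c _ _ _).2 (Input.rel_bit (C c) q s b w)⟩

/-- CLASSIFICATION of the positive input paths from a start vector -/
theorem path_classify (q : ℕ) {W : List (𝔐 c).SL} (hW : ∀ y ∈ W, y.1 ∈ (I c).Jin)
    (hp : ∀ y ∈ W, y.2 = true) {β : (𝔐 c).Vec} (h : (𝔐 c).Path W (ξ c q) β) :
    (∃ s, W = fuelW c s ∧ β = pre c q s) ∨ ∃ w s, W = inW c w s ∧ β = cfg c q w s := by
  induction W generalizing β with
  | nil => exact Or.inl ⟨0, rfl, h.symm⟩
  | cons y W ih =>
    obtain ⟨γ, hγ, hy⟩ := h
    obtain ⟨i, hi⟩ := mem_Jin c (hW y (List.mem_cons_self ..))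
    have hy2 := hp y (List.mem_cons_self ..)
    have hy' : y = sl c i := Prod.ext hi hy2
    subst hy'
    obtain ⟨β, rfl⟩ := tw_surjective c β
    rcases ih (fun y hy => hW y (List.mem_cons_of_mem _ hy))
      (fun y hy => hp y (List.mem_cons_of_mem _ hy)) hγ with ⟨s, rfl, rfl⟩ | ⟨w, s, rfl, rfl⟩
    · have hr := (app_sl c i _ _).1 hy
      have hst : (0 : ℤ) = Input.src i := Input.inp_src (C c) hr
      cases i with
      | c =>
        refine Or.inl ⟨s + 1, rfl, ?_⟩
        rw [hr.unique (Input.valid_inp (C c) .c) (Input.rel_c (C c) q s)]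
        rfl
      | e =>
        refine Or.inr ⟨[], s, rfl, ?_⟩
        rw [hr.unique (Input.valid_inp (C c) .e) (Input.rel_e (C c) q s)]
        rfl
      | a => simp [Input.src] at hst
      | f => simp [Input.src] at hst
    · have hr := (app_sl c i _ _).1 hy
      have hst : (1 : ℤ) = Input.src i := Input.inp_src (C c) hr
      cases i with
      | c => simp [Input.src] at hst
      | e => simp [Input.src] at hst
      | a =>
        refine Or.inr ⟨false :: w, s, rfl, ?_⟩
        rw [hr.unique (Input.valid_inp (C c) .a) (Input.rel_bit (C c) q s false w)]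
        rfl
      | f =>
        refine Or.inr ⟨true :: w, s, rfl, ?_⟩
        rw [hr.unique (Input.valid_inp (C c) .f) (Input.rel_bit (C c) q s true w)]
        rfl

end Main

end Claimed.Agent.R152.MC
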