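/-
Row 152, module MC (machine chain), part 11: the block code on the level of bits and the choice of
the tag `q₀` (self reference).
-/
import Claimed.Agent.R152.MC.Code
import Claimed.Agent.R152.RE.Closure

set_option autoImplicit false

namespace Claimed.Agent.R152.MC

open Claimed.Agent.R152.RE

/-- the bits of the block `a^(l+1) f^(N+1) a^(l+1)` -/
def bitsB (N l : ℕ) : List Bool :=
  List.replicate (l + 1) false ++ (List.replicate (N + 1) true ++ List.replicate (l + 1) false)

/-- the bits of a word of blocks -/
def bits {D : ℕ} (N : ℕ) (W : List (Fin D)) : List Bool :=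
  W.flatMap fun l : Fin D => bitsB N (l : ℕ)

theorem replicate_false_append_inj {a b : ℕ} {x y : List Bool}
    (h : List.replicate a false ++ true :: x = List.replicate b false ++ true :: y) :
    a = b ∧ x = y := by
  induction a generalizing b with
  | zero =>
    cases b with
    | zero => simpa using h
    | succ b => simp [List.replicate_succ] at h
  | succ a ih =>
    cases b with
    | zero => simp [List.replicate_succ] at h
    | succ b =>
      simp only [List.replicate_succ, List.cons_append, List.cons.injEq, true_and] at h
      obtain ⟨h1, h2⟩ := ih h
      exact ⟨by omega, h2⟩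

theorem bits_injective {D : ℕ} (N : ℕ) : Function.Injective (bits (D := D) N) := by
  intro W
  induction W with
  | nil =>
    intro W' h
    cases W' with
    | nil => rfl
    | cons l' W' => simp [bits, bitsB, List.replicate_succ] at h
  | cons l W ih =>
    intro W' h
    cases W' with
    | nil => simp [bits, bitsB, List.replicate_succ] at h
    | cons l' W' =>
      have h1 : List.replicate ((l : ℕ) + 1) false ++ true :: (List.replicate N true ++
            (List.replicate ((l : ℕ) + 1) false ++ bits N W)) =
          List.replicate ((l' : ℕ) + 1) false ++ true :: (List.replicate N true ++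
            (List.replicate ((l' : ℕ) + 1) false ++ bits N W')) := by
        simpa [bits, bitsB, List.replicate_succ, List.append_assoc] using h
      obtain ⟨h2, h3⟩ := replicate_false_append_inj h1
      have h4 : l = l' := Fin.ext (by omega)
      subst h4
      have h5 := List.append_cancel_left (List.append_cancel_left h3)
      rw [ih h5]

theorem primrec_num : Primrec num := by
  have h : Primrec fun w : List Bool => w.foldr (fun b n => 4 * n + if b then 2 else 0) 1 := by
    refine Primrec.list_foldr (h := fun _ (p : Bool × ℕ) => 4 * p.2 + if p.1 then 2 else 0)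
      Primrec.id (Primrec.const 1) ?_
    refine Primrec.nat_add.comp (Primrec.nat_mul.comp (Primrec.const 4)
      (Primrec.snd.comp Primrec.snd)) ?_
    exact (Primrec.cond (Primrec.fst.comp Primrec.snd) (Primrec.const 2) (Primrec.const 0)).of_eq
      fun x => by cases x.2.1 <;> rfl
  refine h.of_eq fun w => ?_
  induction w with
  | nil => rfl
  | cons b w ih => simp only [List.foldr_cons, num, ih]

theorem primrec_bits {D : ℕ} (N : ℕ) : Primrec (bits (D := D) N) := by
  unfold bits
  exact Primrec.list_flatMap (f := fun W : List (Fin D) => W)
    (g := fun _ (l : Fin D) => bitsB N l) Primrec.id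
    ((Primrec.dom_finite fun l : Fin D => bitsB N l).comp Primrec.snd)

/-- CHOICE OF THE TAG.  For every r.e. family `Name q` of sets of block words there is a tag `q₀`
such that the universal machine with tag `q₀` accepts (the code of) `W` iff `Name q₀ W`. -/
theorem exists_tag {D : ℕ} (N : ℕ) (Name : ℕ → List (Fin D) → Prop)
    (hName : REPred fun x : ℕ × List (Fin D) => Name x.1 x.2) :
    ∃ q₀, ∀ W, Univ q₀ (num (bits N W)) ↔ Name q₀ W := by
  have h1 : REPred fun x : (ℕ × ℕ) × List (Fin D) => num (bits N x.2) = x.1.2 ∧ Name x.1.1 x.2 := by
    refine re_and ?_ ?_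
    · exact re_eq ((primrec_num.comp ((primrec_bits N).comp Primrec.snd)).to_comp)
        (Computable.snd.comp Computable.fst)
    · exact re_comp hName (Computable.pair (Computable.fst.comp Computable.fst) Computable.snd)
  obtain ⟨q₀, hq⟩ := exists_self (fun q n => ∃ W : List (Fin D), num (bits N W) = n ∧ Name q W)
    (re_exists h1)
  refine ⟨q₀, fun W => ?_⟩
  rw [hq]
  constructor
  · rintro ⟨W', h, hW'⟩
    rwa [← bits_injective N (num_injective h)]
  · intro h
    exact ⟨W, rfl, h⟩

end Claimed.Agent.R152.MC
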