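/-
Row 152, module MC (machine chain), part 12: THE EXPORT.
`hardware_of_re` : every r.e. `p q n` is accepted by an affine machine with input structure;
`hardware`       : the universal machine, with the choice of the tag (self reference).
-/
import Claimed.Agent.R152.MC.Acc
import Claimed.Agent.R152.MC.Tag

set_option autoImplicit false
set_option linter.unusedSectionVars false

open Turing Turing.PartrecToTM2

namespace Claimed.Agent.R152.HW

/-- the blocks of a `U`-word, in the order of the word -/
def Inp.blocks {𝔐 : Aff} (I : Inp 𝔐) (D N : ℕ) (ν : FreeGroup (I.code D N).UL) : List (Fin D) :=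
  ν.toWord.filterMap fun y => (y.1.getLeft? : Option (Fin D))

end Claimed.Agent.R152.HW

namespace Claimed.Agent.R152.MC

open Claimed.Agent.R152.HW

theorem isReduced_of_pos {α : Type*} {L : List (α × Bool)} (h : ∀ y ∈ L, y.2 = true) :
    FreeGroup.IsReduced L := by
  induction L with
  | nil => exact List.isChain_nil
  | cons x L ih =>
    have ih' := ih fun y hy => h y (List.mem_cons_of_mem _ hy)
    cases L with
    | nil => exact List.isChain_singleton _
    | cons y L =>
      refine List.isChain_cons_cons.2 ⟨fun _ => ?_, ih'⟩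
      rw [h x (by simp), h y (by simp)]

namespace Main
variable (c : ToPartrec.Code)

/-- reading the bits of a word in the letters -/
noncomputable def proj (W : List (𝔐 c).SL) : List Bool :=
  W.filterMap fun y => if y.1 = lin c .a then some false else if y.1 = lin c .f then some true
    else none

theorem proj_append (W W' : List (𝔐 c).SL) : proj c (W ++ W') = proj c W ++ proj c W' :=
  List.filterMap_append

theorem proj_fuelW (s : ℕ) : proj c (fuelW c s) = [] := by
  have h1 : lin c .c ≠ lin c .a := fun h => by cases lin_injective c h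
  have h2 : lin c .c ≠ lin c .f := fun h => by cases lin_injective c h
  induction s with
  | zero => rfl
  | succ s ih =>
    rw [fuelW, List.replicate_succ]
    simp only [proj, List.filterMap_cons, sl, h1, h2, if_false]
    exact ih

theorem proj_bits (w : List Bool) : proj c (w.map fun b => sl c (Input.bit b)) = w := by
  have h1 : lin c .f ≠ lin c .a := fun h => by cases lin_injective c h
  induction w with
  | nil => rfl
  | cons b w ih =>
    cases b
    · simp only [List.map_cons, proj, List.filterMap_cons, sl, Input.bit, if_true]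
      exact congrArg _ ih
    · simp only [List.map_cons, proj, List.filterMap_cons, sl, Input.bit, h1, if_true, if_false]
      exact congrArg _ ih

theorem proj_inW (w : List Bool) (s : ℕ) : proj c (inW c w s) = w := by
  have h1 : lin c .e ≠ lin c .a := fun h => by cases lin_injective c h
  have h2 : lin c .e ≠ lin c .f := fun h => by cases lin_injective c h
  rw [inW, proj_append, proj_bits]
  have : proj c (sl c .e :: fuelW c s) = proj c (fuelW c s) := by
    simp only [proj, List.filterMap_cons, sl, h1, h2, if_false]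
  rw [this, proj_fuelW, List.append_nil]

section blocks
variable (D N : ℕ)

theorem blkWord_inl (l : Fin ((I c).code D N).D) :
    ((I c).code D N).blkWord (Sum.inl l) = (bitsB N l).map fun b => sl c (Input.bit b) := by
  show List.replicate ((l : ℕ) + 1) (lin c .a, true) ++ List.replicate (N + 1) (lin c .f, true) ++
      List.replicate ((l : ℕ) + 1) (lin c .a, true) = _
  simp only [bitsB, List.map_append, List.map_replicate, sl, Input.bit, List.append_assoc]

theorem proj_blkWord_inr (j : Fin ((I c).code D N).nO) : proj c (((I c).code D N).blkWord (Sum.inr j)) = [] := by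
  show proj c [((I c).o j, true)] = []
  have h1 : (I c).o j ≠ lin c .a := (I c).o_ne_la j
  have h2 : (I c).o j ≠ lin c .f := (I c).o_ne_lf j
  simp [proj, h1, h2]

theorem proj_flatMap (L : List (((I c).code D N).UL × Bool)) :
    proj c (L.flatMap fun y => ((I c).code D N).blkWord y.1) = bits N (L.filterMap fun y => y.1.getLeft?) := by
  induction L with
  | nil => rfl
  | cons y L ih =>
    rw [List.flatMap_cons, proj_append, ih]
    obtain ⟨y, e⟩ := y
    cases y with
    | inl l =>
      have : proj c (((I c).code D N).blkWord (Sum.inl l)) = bitsB N l := by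
        rw [blkWord_inl, proj_bits]
      rw [this]
      rfl
    | inr j =>
      have : proj c (((I c).code D N).blkWord (Sum.inr j)) = [] := proj_blkWord_inr c D N j
      rw [this]
      rfl

/-- accepted `U`-words are positive and their blocks are accepted by the code -/
theorem acc_imp (q : ℕ) {ν : FreeGroup ((I c).code D N).UL} (h : (I c).Acc D N (ξ c q) ν) :
    (∀ y ∈ ν.toWord, y.2 = true) ∧ (c.eval [num (bits N ((I c).blocks D N ν)), q]).Dom := by
  have hpos := (I c).pos_of_acc D N (start c q) h
  refine ⟨hpos, ?_⟩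
  obtain ⟨α, hp, hr⟩ := h
  have hJ := (I c).letters_U D N ν
  have hp2 := (I c).pos_of_path (start c q) hJ FreeGroup.isReduced_toWord hp
  rcases path_classify c q hJ hp2 hp with ⟨s, -, rfl⟩ | ⟨w, s, hw, rfl⟩
  · exact absurd hr (not_reach_pre c q s)
  · have h1 := (accept_iff c q w).1 ⟨s, hr⟩
    have h2 : w = bits N (ν.toWord.filterMap fun y => y.1.getLeft?) := by
      rw [← proj_inW c w s, ← hw, ((I c).code D N).toWord_blkHom_of_pos ν hpos, proj_flatMap]
    rw [h2] at h1
    exact h1

/-- the index of the letter `c` -/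
def jc : Fin ((I c).code D N).nO := (0 : Fin 2)
/-- the index of the letter `e` -/
def je : Fin ((I c).code D N).nO := (1 : Fin 2)

/-- the `U`-word of a word of blocks with `s` units of fuel -/
def uword (W : List (Fin ((I c).code D N).D)) (s : ℕ) : List (((I c).code D N).UL × Bool) :=
  W.map (fun l => (Sum.inl l, true)) ++
    (Sum.inr (je c D N), true) :: List.replicate s (Sum.inr (jc c D N), true)

theorem uword_pos (W : List (Fin ((I c).code D N).D)) (s : ℕ) : ∀ y ∈ uword c D N W s, y.2 = true := by
  intro y hy
  rw [uword] at hy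
  rcases List.mem_append.1 hy with hy | hy
  · obtain ⟨l, -, rfl⟩ := List.mem_map.1 hy
    rfl
  · rcases List.mem_cons.1 hy with rfl | hy
    · rfl
    · rw [List.eq_of_mem_replicate hy]

theorem flatMap_uword (W : List (Fin ((I c).code D N).D)) (s : ℕ) :
    ((uword c D N W s).flatMap fun y => ((I c).code D N).blkWord y.1) = inW c (bits N W) s := by
  have h1 : ((W.map fun l => ((Sum.inl l : ((I c).code D N).UL), true)).flatMap
      fun y => ((I c).code D N).blkWord y.1) = (bits N W).map fun b => sl c (Input.bit b) := by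
    induction W with
    | nil => rfl
    | cons l W ih =>
      rw [List.map_cons, List.flatMap_cons, ih, blkWord_inl]
      simp only [bits, List.flatMap_cons, List.map_append]
  have h2 : ((List.replicate s ((Sum.inr (jc c D N) : ((I c).code D N).UL), true)).flatMap
      fun y => ((I c).code D N).blkWord y.1) = fuelW c s := by
    induction s with
    | zero => rfl
    | succ s ih =>
      rw [List.replicate_succ, List.flatMap_cons, ih]
      show [sl c .c] ++ fuelW c s = fuelW c (s + 1)
      rw [fuelW, fuelW, List.replicate_succ]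
      rfl
  rw [uword, List.flatMap_append, h1, List.flatMap_cons, h2]
  rfl

theorem filterMap_uword (W : List (Fin ((I c).code D N).D)) (s : ℕ) :
    ((uword c D N W s).filterMap fun y => y.1.getLeft?) = W := by
  have h1 : ((W.map fun l => ((Sum.inl l : ((I c).code D N).UL), true)).filterMap
      fun y => y.1.getLeft?) = W := by
    induction W with
    | nil => rfl
    | cons l W ih => rw [List.map_cons, List.filterMap_cons]; exact congrArg _ ih
  have h2 : ((List.replicate s ((Sum.inr (jc c D N) : ((I c).code D N).UL), true)).filterMap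
      fun y => y.1.getLeft?) = [] := by
    induction s with
    | zero => rfl
    | succ s ih => rw [List.replicate_succ, List.filterMap_cons]; exact ih
  rw [uword, List.filterMap_append, List.filterMap_cons, h1, h2]
  exact List.append_nil W

/-- every accepted word of blocks comes from an accepted positive `U`-word -/
theorem exists_acc' (q : ℕ) (W : List (Fin ((I c).code D N).D))
    (h : (c.eval [num (bits N W), q]).Dom) :
    ∃ ν : FreeGroup ((I c).code D N).UL, (I c).Acc D N (ξ c q) ν ∧ (∀ y ∈ ν.toWord, y.2 = true) ∧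
      (ν.toWord.filterMap fun y => y.1.getLeft?) = W := by
  obtain ⟨s, hs⟩ := (accept_iff c q (bits N W)).2 h
  have hw : (FreeGroup.mk (uword c D N W s)).toWord = uword c D N W s := by
    rw [FreeGroup.toWord_mk, (isReduced_of_pos (uword_pos c D N W s)).reduce_eq]
  have hpos : ∀ y ∈ (FreeGroup.mk (uword c D N W s)).toWord, y.2 = true := by
    rw [hw]; exact uword_pos c D N W s
  refine ⟨FreeGroup.mk (uword c D N W s), ⟨_, ?_, hs⟩, hpos, ?_⟩
  · rw [((I c).code D N).toWord_blkHom_of_pos _ hpos, hw, flatMap_uword]
    exact path_inW c q _ s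
  · have := filterMap_uword c D N W s
    rw [← hw] at this
    exact this

theorem exists_acc (q : ℕ) (W : List (Fin D)) (h : (c.eval [num (bits N W), q]).Dom) :
    ∃ ν : FreeGroup ((I c).code D N).UL, (I c).Acc D N (ξ c q) ν ∧ (∀ y ∈ ν.toWord, y.2 = true) ∧
      (I c).blocks D N ν = W :=
  exists_acc' c D N q W h

end blocks

end Main

/-- EXPORT 1.  Every r.e. predicate `p q n` is accepted by an affine machine. -/
theorem hardware_of_re (p : ℕ → ℕ → Prop) (hp : REPred fun x : ℕ × ℕ => p x.1 x.2) :
    ∃ (𝔐 : Aff) (I : Inp 𝔐) (ξ : ℕ → 𝔐.Vec),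
      (∀ q, I.Start (ξ q)) ∧
      (∀ α, ∃ β, Relation.ReflTransGen (fun α β => ∃ l ∈ I.JM, 𝔐.Step l α β) α β ∧
        ∀ l ∈ I.JM, ∀ γ, ¬ 𝔐.Step l β γ) ∧
      ∀ D N q,
        (∀ ν, I.Acc D N (ξ q) ν →
          (∀ y ∈ ν.toWord, y.2 = true) ∧ p q (num (bits N (I.blocks D N ν)))) ∧
        ∀ W : List (Fin D), p q (num (bits N W)) →
          ∃ ν, I.Acc D N (ξ q) ν ∧ (∀ y ∈ ν.toWord, y.2 = true) ∧ I.blocks D N ν = W := by
  obtain ⟨c, hc⟩ := exists_code_of_re p hp
  refine ⟨Main.𝔐 c, Main.I c, Main.ξ c, Main.start c, Main.exists_terminal c, fun D N q => ⟨?_, ?_⟩⟩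
  · intro ν hν
    obtain ⟨h1, h2⟩ := Main.acc_imp c D N q hν
    exact ⟨h1, (hc _ _).1 h2⟩
  · intro W hW
    exact Main.exists_acc c D N q W ((hc _ _).2 hW)

/-- EXPORT 2.  THE UNIVERSAL HARDWARE MACHINE: one machine; for every r.e. family `Name q` of sets
of block words (which may be defined in terms of the machine) there is a tag `q₀` such that the
accepted inputs with tag `q₀` are exactly the words of `Name q₀`. -/
theorem hardware :
    ∃ (𝔐 : Aff) (I : Inp 𝔐) (ξ : ℕ → 𝔐.Vec),
      (∀ q, I.Start (ξ q)) ∧
      (∀ α, ∃ β, Relation.ReflTransGen (fun α β => ∃ l ∈ I.JM, 𝔐.Step l α β) α β ∧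
        ∀ l ∈ I.JM, ∀ γ, ¬ 𝔐.Step l β γ) ∧
      ∀ (D N : ℕ) (Name : ℕ → List (Fin D) → Prop),
        (REPred fun x : ℕ × List (Fin D) => Name x.1 x.2) →
        ∃ q₀,
          (∀ ν, I.Acc D N (ξ q₀) ν → (∀ y ∈ ν.toWord, y.2 = true) ∧ Name q₀ (I.blocks D N ν)) ∧
          ∀ W : List (Fin D), Name q₀ W →
            ∃ ν, I.Acc D N (ξ q₀) ν ∧ (∀ y ∈ ν.toWord, y.2 = true) ∧ I.blocks D N ν = W := by
  obtain ⟨𝔐, I, ξ, h1, h2, h3⟩ := hardware_of_re Univ univ_re
  refine ⟨𝔐, I, ξ, h1, h2, fun D N Name hName => ?_⟩
  obtain ⟨q₀, hq⟩ := exists_tag N Name hName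
  refine ⟨q₀, fun ν hν => ?_, fun W hW => ?_⟩
  · obtain ⟨h4, h5⟩ := (h3 D N q₀).1 ν hν
    exact ⟨h4, (hq _).1 h5⟩
  · exact (h3 D N q₀).2 W ((hq W).2 hW)

end Claimed.Agent.R152.MC
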