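/-
Row 152, module MC (machine chain), part 13: the start vector `ξ q` is `E q` in the input register
and `0` elsewhere, with `E` primitive recursive.
-/
import Claimed.Agent.R152.MC.Export

set_option autoImplicit false
set_option linter.unusedSectionVars false

open Turing Turing.PartrecToTM2

namespace Claimed.Agent.R152.MC

namespace Xi
variable {Q : Type*} (C : Coding Q Γ')

/-- the base as a natural number -/
def mN : ℕ := C.m.toNat
/-- the digits as natural numbers -/
def dN (s : Γ') : ℕ := (C.dig s).toNat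

theorem mN_cast : ((mN C : ℕ) : ℤ) = C.m := Int.toNat_of_nonneg (by have := C.hm; omega)
theorem dN_cast (s : Γ') : ((dN C s : ℕ) : ℤ) = C.dig s := Int.toNat_of_nonneg (C.dig_pos s).le

/-- the value of a stack as a natural number -/
def encN : List Γ' → ℕ
  | [] => 0
  | s :: l => mN C * encN l + dN C s

theorem encN_cast (l : List Γ') : ((encN C l : ℕ) : ℤ) = C.enc l := by
  induction l with
  | nil => rfl
  | cons s l ih => simp only [encN, Coding.enc_cons]; push_cast; rw [ih, mN_cast, dN_cast]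

/-- the value of the numeral `q` followed by `cons` -/
def F (q : ℕ) : ℕ := encN C (trNat q ++ [Γ'.cons])

theorem F_zero : F C 0 = dN C Γ'.cons := by
  simp [F, trNat_zero, encN]

theorem F_pos {q : ℕ} (hq : 0 < q) :
    F C q = mN C * F C (q / 2) + (if q % 2 = 1 then dN C Γ'.bit1 else dN C Γ'.bit0) := by
  rcases Nat.mod_two_eq_zero_or_one q with h | h
  · have h1 : q = 2 * (q / 2) := by omega
    have h2 : 0 < q / 2 := by omega
    conv_lhs => rw [h1]
    rw [F, trNat_two_mul h2]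
    simp [F, encN, h]
  · have h1 : q = 2 * (q / 2) + 1 := by omega
    conv_lhs => rw [h1]
    rw [F, trNat_two_mul_add_one]
    simp [F, encN, h]

theorem primrec_F : Primrec (F C) := by
  let g : Unit → List ℕ → Option ℕ := fun _ l =>
    some (if l.length = 0 then dN C Γ'.cons
      else mN C * l.getD (l.length / 2) 0 +
        (if l.length % 2 = 1 then dN C Γ'.bit1 else dN C Γ'.bit0))
  have hlen : Primrec fun x : Unit × List ℕ => x.2.length := Primrec.list_length.comp Primrec.snd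
  have hg : Primrec₂ g := by
    refine Primrec.option_some.comp ?_
    refine Primrec.ite (Primrec.eq.comp hlen (Primrec.const 0)) (Primrec.const _) ?_
    refine Primrec.nat_add.comp (Primrec.nat_mul.comp (Primrec.const _) ?_) ?_
    · exact (Primrec.list_getD 0).comp Primrec.snd (Primrec.nat_div.comp hlen (Primrec.const 2))
    · exact Primrec.ite (Primrec.eq.comp (Primrec.nat_mod.comp hlen (Primrec.const 2))
        (Primrec.const 1)) (Primrec.const _) (Primrec.const _)
  have H : ∀ (a : Unit) (n : ℕ), g a ((List.range n).map (fun k => F C k)) = some (F C n) := by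
    intro a n
    simp only [g, List.length_map, List.length_range, Option.some.injEq]
    rcases Nat.eq_zero_or_pos n with rfl | hn
    · simp [F_zero]
    · rw [if_neg (by omega), F_pos C hn]
      have : n / 2 < n := by omega
      simp [List.getD, this]
  have := Primrec.nat_strong_rec (fun (_ : Unit) k => F C k) hg H
  exact (this.comp (Primrec.const ()) Primrec.id).of_eq fun _ => rfl

/-- the value of the input register of the start vector -/
def E (q : ℕ) : ℕ := mN C * (mN C * F C q + dN C Γ'.cons) + dN C Γ'.bit1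

theorem primrec_E : Primrec (E C) := by
  unfold E
  exact Primrec.nat_add.comp (Primrec.nat_mul.comp (Primrec.const _)
    (Primrec.nat_add.comp (Primrec.nat_mul.comp (Primrec.const _) (primrec_F C))
      (Primrec.const _))) (Primrec.const _)

theorem E_eq (q : ℕ) : ((E C q : ℕ) : ℤ) = C.enc (Input.T q [] K'.main) := by
  rw [← encN_cast]
  simp [E, F, Input.T, trList, trNat_num_nil, encN]

end Xi

namespace Main
variable (c : ToPartrec.Code)

theorem ξ_eq (q : ℕ) : ξ c q = Pi.single (I c).r ((Xi.E (C c) q : ℕ) : ℤ) := by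
  funext i
  obtain ⟨r, rfl⟩ := eR.surjective i
  show tw c (Input.ξ (C c) q) (eR r) = _
  rw [tw_apply]
  show _ = Pi.single (M := fun _ => ℤ) (eR (Reg.stk K'.main)) ((Xi.E (C c) q : ℕ) : ℤ) (eR r)
  cases r with
  | st => rw [Pi.single_eq_of_ne (by simp)]; rfl
  | fuel => rw [Pi.single_eq_of_ne (by simp)]; rfl
  | stk k =>
    cases k with
    | main => rw [Pi.single_eq_same, Xi.E_eq]; rfl
    | rev => rw [Pi.single_eq_of_ne (by simp)]; rfl
    | aux => rw [Pi.single_eq_of_ne (by simp)]; rfl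
    | stack => rw [Pi.single_eq_of_ne (by simp)]; rfl

end Main

open Claimed.Agent.R152.HW

/-- EXPORT 1 with the computability of the start vectors. -/
theorem hardware_of_re_E (p : ℕ → ℕ → Prop) (hp : REPred fun x : ℕ × ℕ => p x.1 x.2) :
    ∃ (𝔐 : Aff) (I : Inp 𝔐) (ξ : ℕ → 𝔐.Vec) (E : ℕ → ℕ),
      Primrec E ∧ (∀ q, ξ q = Pi.single I.r ((E q : ℕ) : ℤ)) ∧
      (∀ q, I.Start (ξ q)) ∧
      (∀ α, ∃ β, Relation.ReflTransGen (fun α β => ∃ l ∈ I.JM, 𝔐.Step l α β) α β ∧
        ∀ l ∈ I.JM, ∀ γ, ¬ 𝔐.Step l β γ) ∧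
      ∀ D N q,
        (∀ ν, I.Acc D N (ξ q) ν →
          (∀ y ∈ ν.toWord, y.2 = true) ∧ p q (num (bits N (I.blocks D N ν)))) ∧
        ∀ W : List (Fin D), p q (num (bits N W)) →
          ∃ ν, I.Acc D N (ξ q) ν ∧ (∀ y ∈ ν.toWord, y.2 = true) ∧ I.blocks D N ν = W := by
  obtain ⟨c, hc⟩ := exists_code_of_re p hp
  refine ⟨Main.𝔐 c, Main.I c, Main.ξ c, Xi.E (Main.C c), Xi.primrec_E _, Main.ξ_eq c, Main.start c,
    Main.exists_terminal c, fun D N q => ⟨?_, ?_⟩⟩
  · intro ν hν
    obtain ⟨h1, h2⟩ := Main.acc_imp c D N q hν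
    exact ⟨h1, (hc _ _).1 h2⟩
  · intro W hW
    exact Main.exists_acc c D N q W ((hc _ _).2 hW)

/-- EXPORT 2 with the computability of the start vectors. -/
theorem hardware_E :
    ∃ (𝔐 : Aff) (I : Inp 𝔐) (ξ : ℕ → 𝔐.Vec) (E : ℕ → ℕ),
      Primrec E ∧ (∀ q, ξ q = Pi.single I.r ((E q : ℕ) : ℤ)) ∧
      (∀ q, I.Start (ξ q)) ∧
      (∀ α, ∃ β, Relation.ReflTransGen (fun α β => ∃ l ∈ I.JM, 𝔐.Step l α β) α β ∧
        ∀ l ∈ I.JM, ∀ γ, ¬ 𝔐.Step l β γ) ∧
      ∀ (D N : ℕ) (Name : ℕ → List (Fin D) → Prop),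
        (REPred fun x : ℕ × List (Fin D) => Name x.1 x.2) →
        ∃ q₀,
          (∀ ν, I.Acc D N (ξ q₀) ν → (∀ y ∈ ν.toWord, y.2 = true) ∧ Name q₀ (I.blocks D N ν)) ∧
          ∀ W : List (Fin D), Name q₀ W →
            ∃ ν, I.Acc D N (ξ q₀) ν ∧ (∀ y ∈ ν.toWord, y.2 = true) ∧ I.blocks D N ν = W := by
  obtain ⟨𝔐, I, ξ, E, hE, hξ, h1, h2, h3⟩ := hardware_of_re_E Univ univ_re
  refine ⟨𝔐, I, ξ, E, hE, hξ, h1, h2, fun D N Name hName => ?_⟩
  obtain ⟨q₀, hq⟩ := exists_tag N Name hName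
  refine ⟨q₀, fun ν hν => ?_, fun W hW => ?_⟩
  · obtain ⟨h4, h5⟩ := (h3 D N q₀).1 ν hν
    exact ⟨h4, (hq _).1 h5⟩
  · exact (h3 D N q₀).2 W ((hq W).2 hW)

end Claimed.Agent.R152.MC
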