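/-
Row 152, module MC (machine chain), part 14: three more clauses of the export.
(W1) the run letters strictly decrease a measure, on all vectors;
(W2) the input letters strictly increase a measure, on all vectors;
(W3) a primitive recursive spelling of `inr (x (ξ q))` in the generators of `Hs`.
-/
import Claimed.Agent.R152.MC.Xi
import Claimed.Agent.R152.HW.Guard

set_option autoImplicit false
set_option linter.unusedSectionVars false

open Turing Turing.PartrecToTM2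

namespace Claimed.Agent.R152.MC

open Claimed.Agent.R152.HW

namespace Input
variable {Q : Type*} (C : Coding Q Γ')

/-- pushing two digits strictly increases the absolute value, on all of `ℤ` -/
theorem abs_lt_of_push2 (s t : Γ') (u : ℤ) : |u| < |M C * u + (C.m * C.dig s + C.dig t)| := by
  have hm := C.hm
  have h1 := C.dig_pos s
  have h2 := C.dig_pos t
  have h3 := C.dig_lt2 s
  have h4 := C.dig_lt2 t
  have hd0 : 0 < C.m * C.dig s + C.dig t := by positivity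
  have hd1 : C.m * C.dig s + C.dig t + 1 < M C := by unfold M; nlinarith
  have hM : 9 ≤ M C := by unfold M; nlinarith
  rcases le_or_gt 0 u with hu | hu
  · rw [abs_of_nonneg hu, abs_of_nonneg (by nlinarith)]
    nlinarith
  · rw [abs_of_neg hu, abs_of_neg (by nlinarith)]
    nlinarith

/-- the measure of (W2) -/
def meas (α : Reg K' → ℤ) : ℕ :=
  (α .st).natAbs + (α .fuel).natAbs + (α (.stk K'.main)).natAbs

theorem meas_lt {i : InL} {α β : Reg K' → ℤ} (h : (inp C i).Rel α β) : meas α < meas β := by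
  unfold meas
  cases i with
  | c =>
    obtain ⟨h1, h2, h3, h4, -⟩ := rel_mkIn.1 h
    simp only [Op.rel_push] at h3
    simp only [Op.rel_idn] at h4
    have := C.abs_lt_of_fuel h3
    rw [Int.abs_eq_natAbs, Int.abs_eq_natAbs] at this
    rw [h1, h2, h4]
    omega
  | e =>
    obtain ⟨h1, h2, h3, h4, -⟩ := rel_mkIn.1 h
    simp only [Op.rel_idn] at h3
    simp only [Op.rel_test] at h4
    rw [h1, h2, h3, h4.1]
    simp
  | a =>
    obtain ⟨h1, h2, h3, h4, -⟩ := rel_mkIn.1 h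
    simp only [Op.rel_idn] at h3
    simp only [Op.rel_push] at h4
    have := abs_lt_of_push2 C Γ'.bit0 Γ'.bit0 (α (.stk K'.main))
    rw [show M C * α (.stk K'.main) + (C.m * C.dig Γ'.bit0 + C.dig Γ'.bit0) = β (.stk K'.main) from
      h4.symm, Int.abs_eq_natAbs, Int.abs_eq_natAbs] at this
    rw [h1, h2, h3]
    omega
  | f =>
    obtain ⟨h1, h2, h3, h4, -⟩ := rel_mkIn.1 h
    simp only [Op.rel_idn] at h3
    simp only [Op.rel_push] at h4
    have := abs_lt_of_push2 C Γ'.bit1 Γ'.bit0 (α (.stk K'.main))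
    rw [show M C * α (.stk K'.main) + (C.m * C.dig Γ'.bit1 + C.dig Γ'.bit0) = β (.stk K'.main) from
      h4.symm, Int.abs_eq_natAbs, Int.abs_eq_natAbs] at this
    rw [h1, h2, h3]
    omega

end Input

namespace Main
variable (c : ToPartrec.Code)

/-- the measure of (W1): the absolute value of the fuel -/
noncomputable def measM (α : (𝔐 c).Vec) : ℕ := (α (eR .fuel)).natAbs

/-- (W1) -/
theorem measM_lt {l : Fin (𝔐 c).nL} (hl : l ∈ (I c).JM) {α β : (𝔐 c).Vec}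
    (h : (𝔐 c).Step l α β) : measM c β < measM c α := by
  obtain ⟨i, rfl⟩ := hl
  obtain ⟨α, rfl⟩ := tw_surjective c α
  obtain ⟨β, rfl⟩ := tw_surjective c β
  have h1 := SMAff.step_fuel_lt (C c) (Chain.P c) (Chain.qi c) (Chain.qf c)
    ⟨i, (step_run_iff c i α β).1 h⟩
  rw [Int.abs_eq_natAbs, Int.abs_eq_natAbs] at h1
  unfold measM
  rw [tw_apply, tw_apply]
  omega

/-- the measure of (W2) -/
noncomputable def measI (α : (𝔐 c).Vec) : ℕ :=
  (α (eR .st)).natAbs + (α (eR .fuel)).natAbs + (α (eR (.stk K'.main))).natAbs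

/-- (W2) -/
theorem measI_lt {l : Fin (𝔐 c).nL} (hl : l ∈ (I c).Jin) {α β : (𝔐 c).Vec}
    (h : (𝔐 c).Step l α β) : measI c α < measI c β := by
  obtain ⟨i, rfl⟩ := mem_Jin c hl
  obtain ⟨α, rfl⟩ := tw_surjective c α
  obtain ⟨β, rfl⟩ := tw_surjective c β
  have h1 := Input.meas_lt (C c) ((step_inp_iff c i α β).1 h)
  unfold measI
  simp only [tw_apply]
  exact h1

end Main

/-- the spelling of `inr (x (n • e_i))` -/
def spell {𝔐 : Aff} (i : Fin 𝔐.k) (n : ℕ) : List 𝔐.HLet := List.replicate n (Sum.inl i, true)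

theorem evalH_spell {𝔐 : Aff} (i : Fin 𝔐.k) (n : ℕ) :
    (Aff.evalH (spell i n) : 𝔐.Hs) = SemidirectProduct.inr (Aff.x (Pi.single i ((n : ℕ) : ℤ))) := by
  induction n with
  | zero =>
    simp [spell, Aff.evalH]
  | succ n ih =>
    have h1 : (Aff.evalH (spell i (n + 1)) : 𝔐.Hs) =
        Aff.genH (Sum.inl i, true) * Aff.evalH (spell i n) := by
      unfold Aff.evalH spell
      rw [List.replicate_succ, List.map_cons, List.prod_cons]
    have h2 : (Aff.genH ((Sum.inl i, true) : 𝔐.HLet) : 𝔐.Hs) =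
        SemidirectProduct.inr (Aff.x (Pi.single i 1)) := rfl
    rw [h1, ih, h2, ← map_mul, ← Aff.x_add, ← Pi.single_add]
    congr 3
    push_cast
    ring

theorem primrec_replicate {α : Type*} [Primcodable α] (a : α) :
    Primrec fun n : ℕ => List.replicate n a := by
  have : Primrec fun n : ℕ => (List.range n).map fun _ => a :=
    Primrec.list_map Primrec.list_range (Primrec.const a).to₂
  exact this.of_eq fun n => by simp

theorem primrec_spell {𝔐 : Aff} (i : Fin 𝔐.k) : Primrec (spell i : ℕ → List 𝔐.HLet) :=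
  primrec_replicate _

/-- EXPORT 1 with (W1), (W2), (W3). -/
theorem hardware_of_re_W (p : ℕ → ℕ → Prop) (hp : REPred fun x : ℕ × ℕ => p x.1 x.2) :
    ∃ (𝔐 : Aff) (I : Inp 𝔐) (ξ : ℕ → 𝔐.Vec) (E : ℕ → ℕ) (sp : ℕ → List 𝔐.HLet),
      Primrec E ∧ (∀ q, ξ q = Pi.single I.r ((E q : ℕ) : ℤ)) ∧
      Primrec sp ∧ (∀ q, (Aff.evalH (sp q) : 𝔐.Hs) = SemidirectProduct.inr (Aff.x (ξ q))) ∧
      (∃ meas : 𝔐.Vec → ℕ, ∀ l ∈ I.JM, ∀ α β, 𝔐.Step l α β → meas β < meas α) ∧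
      (∃ meas : 𝔐.Vec → ℕ, ∀ l ∈ I.Jin, ∀ α β, 𝔐.Step l α β → meas α < meas β) ∧
      (∀ q, I.Start (ξ q)) ∧
      (∀ α, ∃ β, Relation.ReflTransGen (fun α β => ∃ l ∈ I.JM, 𝔐.Step l α β) α β ∧
        ∀ l ∈ I.JM, ∀ γ, ¬ 𝔐.Step l β γ) ∧
      ∀ D N q,
        (∀ ν, I.Acc D N (ξ q) ν →
          (∀ y ∈ ν.toWord, y.2 = true) ∧ p q (num (bits N (I.blocks D N ν)))) ∧
        ∀ W : List (Fin D), p q (num (bits N W)) →
          ∃ ν, I.Acc D N (ξ q) ν ∧ (∀ y ∈ ν.toWord, y.2 = true) ∧ I.blocks D N ν = W := by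
  obtain ⟨c, hc⟩ := exists_code_of_re p hp
  refine ⟨Main.𝔐 c, Main.I c, Main.ξ c, Xi.E (Main.C c), fun q => spell (Main.I c).r (Xi.E (Main.C c) q),
    Xi.primrec_E _, Main.ξ_eq c, (primrec_spell _).comp (Xi.primrec_E _), ?_,
    ⟨Main.measM c, fun l hl α β h => Main.measM_lt c hl h⟩,
    ⟨Main.measI c, fun l hl α β h => Main.measI_lt c hl h⟩, Main.start c,
    Main.exists_terminal c, fun D N q => ⟨?_, ?_⟩⟩
  · intro q
    rw [evalH_spell, Main.ξ_eq]
  · intro ν hν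
    obtain ⟨h1, h2⟩ := Main.acc_imp c D N q hν
    exact ⟨h1, (hc _ _).1 h2⟩
  · intro W hW
    exact Main.exists_acc c D N q W ((hc _ _).2 hW)

/-- EXPORT 2 with (W1), (W2), (W3). -/
theorem hardware_W :
    ∃ (𝔐 : Aff) (I : Inp 𝔐) (ξ : ℕ → 𝔐.Vec) (E : ℕ → ℕ) (sp : ℕ → List 𝔐.HLet),
      Primrec E ∧ (∀ q, ξ q = Pi.single I.r ((E q : ℕ) : ℤ)) ∧
      Primrec sp ∧ (∀ q, (Aff.evalH (sp q) : 𝔐.Hs) = SemidirectProduct.inr (Aff.x (ξ q))) ∧
      (∃ meas : 𝔐.Vec → ℕ, ∀ l ∈ I.JM, ∀ α β, 𝔐.Step l α β → meas β < meas α) ∧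
      (∃ meas : 𝔐.Vec → ℕ, ∀ l ∈ I.Jin, ∀ α β, 𝔐.Step l α β → meas α < meas β) ∧
      (∀ q, I.Start (ξ q)) ∧
      (∀ α, ∃ β, Relation.ReflTransGen (fun α β => ∃ l ∈ I.JM, 𝔐.Step l α β) α β ∧
        ∀ l ∈ I.JM, ∀ γ, ¬ 𝔐.Step l β γ) ∧
      ∀ (D N : ℕ) (Name : ℕ → List (Fin D) → Prop),
        (REPred fun x : ℕ × List (Fin D) => Name x.1 x.2) →
        ∃ q₀,
          (∀ ν, I.Acc D N (ξ q₀) ν → (∀ y ∈ ν.toWord, y.2 = true) ∧ Name q₀ (I.blocks D N ν)) ∧
          ∀ W : List (Fin D), Name q₀ W →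
            ∃ ν, I.Acc D N (ξ q₀) ν ∧ (∀ y ∈ ν.toWord, y.2 = true) ∧ I.blocks D N ν = W := by
  obtain ⟨𝔐, I, ξ, E, sp, hE, hξ, hsp, hsp', w1, w2, h1, h2, h3⟩ := hardware_of_re_W Univ univ_re
  refine ⟨𝔐, I, ξ, E, sp, hE, hξ, hsp, hsp', w1, w2, h1, h2, fun D N Name hName => ?_⟩
  obtain ⟨q₀, hq⟩ := exists_tag N Name hName
  refine ⟨q₀, fun ν hν => ?_, fun W hW => ?_⟩
  · obtain ⟨h4, h5⟩ := (h3 D N q₀).1 ν hν
    exact ⟨h4, (hq _).1 h5⟩
  · exact (h3 D N q₀).2 W ((hq W).2 hW)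

end Claimed.Agent.R152.MC
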